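import Mathlib

/-!
Boards of width `p * p` whose lines all carry patterns of the last-nonzero-digit function admit no
vertical period, as soon as they are seeded.
-/

open Finset

namespace Vale.Agent.P043.Board

variable {p : ℕ} [hp : Fact p.Prime]

/-- The last nonzero base `p` digit, with value one at zero. -/
noncomputable def lastDigit (p : ℕ) (n : ℤ) : ZMod p :=
  if n = 0 then 1 else ((n / (p : ℤ) ^ padicValInt p n : ℤ) : ZMod p)

lemma lastDigit_zero : lastDigit p 0 = 1 := if_pos rfl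

lemma lastDigit_ne_zero (n : ℤ) : lastDigit p n ≠ 0 := by
  rcases eq_or_ne n 0 with rfl | hn
  · rw [lastDigit_zero]; exact one_ne_zero
  rw [lastDigit, if_neg hn, Ne, ZMod.intCast_zmod_eq_zero_iff_dvd]
  intro h
  have h1 : (p : ℤ) ^ padicValInt p n ∣ n := padicValInt_dvd n
  have h2 : (p : ℤ) ^ (padicValInt p n + 1) ∣ n := by
    generalize padicValInt p n = k at h h1 ⊢
    obtain ⟨u, hu⟩ := h1
    rw [hu, Int.mul_ediv_cancel_left _ (pow_ne_zero _ (by exact_mod_cast hp.out.ne_zero))] at h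
    conv_rhs => rw [hu]
    rw [pow_succ]
    exact mul_dvd_mul_left _ h
  rcases (padicValInt_dvd_iff (padicValInt p n + 1) n).1 h2 with h3 | h3
  · exact hn h3
  · omega

lemma lastDigit_of_cast_ne {n : ℤ} (hn : (n : ZMod p) ≠ 0) : lastDigit p n = n := by
  have h0 : n ≠ 0 := fun h => hn (by simp [h])
  have h1 : padicValInt p n = 0 := padicValInt.eq_zero_of_not_dvd
    (fun h => hn ((ZMod.intCast_zmod_eq_zero_iff_dvd n p).2 h))
  simp [lastDigit, h0, h1]

lemma lastDigit_mul (n : ℤ) : lastDigit p ((p : ℤ) * n) = lastDigit p n := by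
  rcases eq_or_ne n 0 with rfl | hn
  · rw [mul_zero]
  have hp0 : (p : ℤ) ≠ 0 := by exact_mod_cast hp.out.ne_zero
  have h : padicValInt p ((p : ℤ) * n) = padicValInt p n + 1 := by
    rw [padicValInt.mul hp0 hn, padicValInt_self]; omega
  rw [lastDigit, lastDigit, if_neg hn, if_neg (mul_ne_zero hp0 hn), h, pow_succ',
    Int.mul_ediv_mul_of_pos _ _ (by exact_mod_cast hp.out.pos)]

/-- All lines of slope `a` and intercept `b` carry patterns of the last digit of affine maps. -/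
def LinesIn (p : ℕ) (T : ℕ → ℤ → ZMod p) : Prop :=
  ∀ a b : ℤ, ∃ A B : ℤ, ∀ j, j < p * p → T j (a * j + b) = lastDigit p (A * j + B)

/-- The board agrees with an affine function wherever that is nonzero. -/
def Affine (p : ℕ) (T : ℕ → ℤ → ZMod p) (l μ K : ZMod p) : Prop :=
  ∀ j, j < p * p → ∀ m : ℤ, l * m + μ * j + K ≠ 0 → T j m = l * m + μ * j + K

lemma exists_reduced : ∀ N : ℕ, ∀ A B : ℤ, A.natAbs + B.natAbs ≤ N → (A ≠ 0 ∨ B ≠ 0) →
    ∃ A' B' : ℤ, ((A' : ZMod p) ≠ 0 ∨ (B' : ZMod p) ≠ 0) ∧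
      ∀ j : ℕ, lastDigit p (A * j + B) = lastDigit p (A' * j + B') := by
  intro N
  induction N using Nat.strong_induction_on with
  | _ N ih =>
    intro A B hN h0
    by_cases h : (A : ZMod p) ≠ 0 ∨ (B : ZMod p) ≠ 0
    · exact ⟨A, B, h, fun _ => rfl⟩
    simp only [not_or, not_not, ZMod.intCast_zmod_eq_zero_iff_dvd] at h
    obtain ⟨⟨u, hu⟩, ⟨v, hv⟩⟩ := h
    have h0' : u ≠ 0 ∨ v ≠ 0 := by
      by_contra hc
      simp only [not_or, not_not] at hc
      simp [hu, hv, hc] at h0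
    have hlt : u.natAbs + v.natAbs < N := by
      have h2 := hp.out.two_le
      rw [hu, hv, Int.natAbs_mul, Int.natAbs_mul, Int.natAbs_natCast, ← mul_add] at hN
      have hpos : 0 < u.natAbs + v.natAbs := by omega
      have := Nat.mul_le_mul_right (u.natAbs + v.natAbs) h2
      omega
    obtain ⟨A', B', h1, h2⟩ := ih _ hlt u v le_rfl h0'
    refine ⟨A', B', h1, fun j => ?_⟩
    rw [hu, hv, show (p : ℤ) * u * j + (p : ℤ) * v = (p : ℤ) * (u * j + v) by ring, lastDigit_mul,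
      h2]

lemma exists_avoid (s : Finset (ZMod p)) (hs : s.card < p) : ∃ x, x ∉ s := by
  by_contra h
  push Not at h
  have : (univ : Finset (ZMod p)) ⊆ s := fun x _ => h x
  have := card_le_card this
  rw [card_univ, ZMod.card] at this
  omega

lemma zeros_small {α β : ZMod p} (h : α ≠ 0 ∨ β ≠ 0) :
    ∃ r, ∀ x : ZMod p, α * x + β = 0 → x = r := by
  refine ⟨-β / α, fun x hx => ?_⟩
  have hα : α ≠ 0 := fun e => by
    rw [e, zero_mul, zero_add] at hx
    exact h.elim (fun k => k e) (fun k => k hx)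
  field_simp
  linear_combination hx

lemma exists_two {α β α' β' : ZMod p} (h : α ≠ 0 ∨ β ≠ 0) (h' : α' ≠ 0 ∨ β' ≠ 0) (hp5 : 5 ≤ p) :
    ∃ x y : ZMod p, x ≠ y ∧ α * x + β ≠ 0 ∧ α' * x + β' ≠ 0 ∧ α * y + β ≠ 0 ∧
      α' * y + β' ≠ 0 := by
  obtain ⟨r, hr⟩ := zeros_small h
  obtain ⟨r', hr'⟩ := zeros_small h'
  obtain ⟨x, hx⟩ := exists_avoid ({r, r'} : Finset (ZMod p))
    (lt_of_le_of_lt card_le_two (by omega))
  obtain ⟨y, hy⟩ := exists_avoid ({r, r', x} : Finset (ZMod p))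
    (lt_of_le_of_lt card_le_three (by omega))
  simp only [Finset.mem_insert, Finset.mem_singleton, not_or] at hx hy
  exact ⟨x, y, Ne.symm hy.2.2, fun e => hx.1 (hr x e), fun e => hx.2 (hr' x e),
    fun e => hy.1 (hr y e), fun e => hy.2.1 (hr' y e)⟩

lemma affine_eq {α β α' β' : ZMod p} (h : α ≠ 0 ∨ β ≠ 0) (h' : α' ≠ 0 ∨ β' ≠ 0) (hp5 : 5 ≤ p)
    (he : ∀ x, α * x + β ≠ 0 → α' * x + β' ≠ 0 → α * x + β = α' * x + β') :
    α = α' ∧ β = β' := by
  obtain ⟨x, y, hxy, a1, a2, b1, b2⟩ := exists_two h h' hp5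
  have e1 := he x a1 a2
  have e2 := he y b1 b2
  have : (α - α') * (x - y) = 0 := by linear_combination e1 - e2
  have hα : α = α' := sub_eq_zero.1
    ((mul_eq_zero.1 this).resolve_right (sub_ne_zero.2 hxy))
  refine ⟨hα, ?_⟩
  rw [hα] at e1
  exact add_left_cancel e1

lemma val_lt_sq (x : ZMod p) : x.val < p * p :=
  lt_of_lt_of_le (ZMod.val_lt x) (Nat.le_mul_self p)

variable {T : ℕ → ℤ → ZMod p}

/-- Every line agrees with a nonzero affine map where that is nonzero. -/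
lemma line_affine (hT : LinesIn p T) (a b : ℤ) :
    ∃ q : ZMod p × ZMod p, (q.1 ≠ 0 ∨ q.2 ≠ 0) ∧
      ∀ j : ℕ, j < p * p → q.1 * j + q.2 ≠ 0 → T j (a * j + b) = q.1 * j + q.2 := by
  obtain ⟨A, B, hAB⟩ := hT a b
  by_cases h0 : A ≠ 0 ∨ B ≠ 0
  · obtain ⟨A', B', h', e⟩ := exists_reduced (p := p) _ A B le_rfl h0
    refine ⟨((A' : ZMod p), (B' : ZMod p)), h', fun j hj hne => ?_⟩
    rw [hAB j hj, e j, lastDigit_of_cast_ne (by push_cast; exact hne)]
    push_cast; rfl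
  · simp only [not_or, not_not] at h0
    refine ⟨(0, 1), Or.inr one_ne_zero, fun j hj _ => ?_⟩
    rw [hAB j hj]
    simp [h0, lastDigit_zero]

/-- On the class of its root a nonconstant line is affine again. -/
lemma line_root (hT : LinesIn p T) (hp5 : 5 ≤ p) (a b : ℤ) {α β : ZMod p} (hα : α ≠ 0)
    (h : ∀ j : ℕ, j < p * p → α * j + β ≠ 0 → T j (a * j + b) = α * j + β) {r : ℕ}
    (hr : r < p) (hroot : α * r + β = 0) :
    ∃ κ : ZMod p, ∀ i : ℕ, i < p → α * i + κ ≠ 0 →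
      T (r + p * i) (a * ((r + p * i : ℕ) : ℤ) + b) = α * i + κ := by
  obtain ⟨A, B, hAB⟩ := hT a b
  have h0 : A ≠ 0 ∨ B ≠ 0 := by
    by_contra hc
    simp only [not_or, not_not] at hc
    have hone : ∀ j, j < p * p → T j (a * j + b) = 1 := fun j hj => by
      rw [hAB j hj]; simp [hc, lastDigit_zero]
    obtain ⟨x, y, hxy, a1, -, b1, -⟩ :=
      exists_two (Or.inl hα) (Or.inl hα : α ≠ 0 ∨ β ≠ 0) hp5
    have e1 := h x.val (val_lt_sq x) (by simpa using a1)
    have e2 := h y.val (val_lt_sq y) (by simpa using b1)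
    rw [hone _ (val_lt_sq x), ZMod.natCast_zmod_val] at e1
    rw [hone _ (val_lt_sq y), ZMod.natCast_zmod_val] at e2
    exact hxy (mul_left_cancel₀ hα (add_right_cancel (e1.symm.trans e2)))
  obtain ⟨A', B', h', e⟩ := exists_reduced (p := p) _ A B le_rfl h0
  obtain ⟨e1, e2⟩ := affine_eq (Or.inl hα : α ≠ 0 ∨ β ≠ 0) h' hp5 fun x hx hx' => by
    have k := h x.val (val_lt_sq x) (by simpa using hx)
    rw [hAB _ (val_lt_sq x), e, lastDigit_of_cast_ne
      (by push_cast; simpa using hx'), ZMod.natCast_zmod_val] at k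
    push_cast at k
    rw [ZMod.natCast_zmod_val] at k
    exact k.symm
  obtain ⟨u, hu⟩ : (p : ℤ) ∣ A' * r + B' := by
    rw [← ZMod.intCast_zmod_eq_zero_iff_dvd]; push_cast; rw [← e1, ← e2]; exact hroot
  refine ⟨(u : ZMod p), fun i hi hne => ?_⟩
  have hj : r + p * i < p * p := by
    have := Nat.mul_le_mul_left p (show i + 1 ≤ p by omega)
    rw [mul_add, mul_one] at this
    omega
  rw [hAB _ hj, e, show A' * ((r + p * i : ℕ) : ℤ) + B' = (p : ℤ) * (A' * i + u) by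
    push_cast; linear_combination hu, lastDigit_mul, lastDigit_of_cast_ne
    (by push_cast; rw [← e1]; exact hne)]
  push_cast; rw [← e1]

section

variable (hT : LinesIn p T) (hp20 : 20 ≤ p)

/-- The coefficient family of a fixed slope. -/
def fam (ε α₀ β₀ γ x : ZMod p) : ZMod p × ZMod p := (α₀ + ε * x, β₀ + γ * x - ε * x ^ 2)

lemma fam_zero_unique {ε α₀ β₀ γ : ZMod p} (h : ¬(ε = 0 ∧ α₀ = 0 ∧ β₀ = 0 ∧ γ = 0))
    {x y : ZMod p} (hx : fam ε α₀ β₀ γ x = 0) (hy : fam ε α₀ β₀ γ y = 0) : x = y := by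
  simp only [fam, Prod.mk_eq_zero] at hx hy
  by_contra hne
  have hε : ε = 0 := (mul_eq_zero.1 (show ε * (x - y) = 0 by linear_combination hx.1 - hy.1))
    |>.resolve_right (sub_ne_zero.2 hne)
  have hα : α₀ = 0 := by simpa [hε] using hx.1
  have hγ : γ = 0 := (mul_eq_zero.1 (show γ * (x - y) = 0 by
    linear_combination hx.2 - hy.2 + (x ^ 2 - y ^ 2) * hε)).resolve_right (sub_ne_zero.2 hne)
  exact h ⟨hε, hα, by simpa [hε, hγ] using hx.2, hγ⟩

lemma fam_inj {ε α₀ β₀ γ ε' α₀' β₀' γ' x y : ZMod p} (hne : x ≠ y)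
    (hx : fam ε α₀ β₀ γ x = fam ε' α₀' β₀' γ' x) (hy : fam ε α₀ β₀ γ y = fam ε' α₀' β₀' γ' y) :
    ε = ε' ∧ α₀ = α₀' ∧ β₀ = β₀' ∧ γ = γ' := by
  simp only [fam, Prod.mk.injEq] at hx hy
  have hε : ε = ε' := sub_eq_zero.1 ((mul_eq_zero.1 (show (ε - ε') * (x - y) = 0 by
    linear_combination hx.1 - hy.1)).resolve_right (sub_ne_zero.2 hne))
  have hα : α₀ = α₀' := by linear_combination hx.1 - x * hε
  have hγ : γ = γ' := sub_eq_zero.1 ((mul_eq_zero.1 (show (γ - γ') * (x - y) = 0 by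
    linear_combination hx.2 - hy.2 + (x ^ 2 - y ^ 2) * hε)).resolve_right (sub_ne_zero.2 hne))
  exact ⟨hε, hα, by linear_combination hx.2 - x * hγ + x ^ 2 * hε, hγ⟩

/-- A chosen affine map of a line. -/
noncomputable def coef (a b : ℤ) : ZMod p × ZMod p := Classical.choose (line_affine hT a b)

lemma coef_ne (a b : ℤ) : (coef hT a b).1 ≠ 0 ∨ (coef hT a b).2 ≠ 0 :=
  (Classical.choose_spec (line_affine hT a b)).1

lemma coef_ne' (a b : ℤ) : coef hT a b ≠ 0 := fun e => by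
  have := coef_ne hT a b
  simp [e] at this

lemma coef_spec (a b : ℤ) (j : ℕ) (hj : j < p * p)
    (hne : (coef hT a b).1 * j + (coef hT a b).2 ≠ 0) :
    T j (a * j + b) = (coef hT a b).1 * j + (coef hT a b).2 :=
  (Classical.choose_spec (line_affine hT a b)).2 j hj hne

lemma natCast_inj_five (hp20 : 20 ≤ p) {i k : Fin 5}
    (h : ((i : ℕ) : ZMod p) = ((k : ℕ) : ZMod p)) : i = k := by
  have h' := (ZMod.natCast_eq_natCast_iff' _ _ _).1 h
  rw [Nat.mod_eq_of_lt (by omega), Nat.mod_eq_of_lt (by omega)] at h'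
  exact Fin.ext h'

lemma window (hp20 : 20 ≤ p) (a b : ℤ) : ∃ ε α₀ β₀ γ : ZMod p,
    ¬(ε = 0 ∧ α₀ = 0 ∧ β₀ = 0 ∧ γ = 0) ∧
    ∀ k : Fin 5, fam ε α₀ β₀ γ ((b : ZMod p) + (k : ℕ)) ≠ 0 →
      coef hT a (b + (k : ℕ)) = fam ε α₀ β₀ γ ((b : ZMod p) + (k : ℕ)) := by
  classical
  set q : Fin 5 → ZMod p × ZMod p := fun k => coef hT a (b + (k : ℕ)) with hq
  have hcol : ∀ (t : ZMod p) (k : Fin 5), t.val + k < p * p := fun t k => by
    have := ZMod.val_lt t
    have := k.isLt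
    have := Nat.mul_le_mul_right p (show 2 ≤ p by omega)
    omega
  have cast_t : ∀ (t : ZMod p) (k : Fin 5), ((t.val + k : ℕ) : ZMod p) = t + (k : ℕ) :=
    fun t k => by push_cast; rw [ZMod.natCast_zmod_val]
  have e : ∀ (t : ZMod p) (k : Fin 5), (q k).1 * (t + (k : ℕ)) + (q k).2 ≠ 0 →
      (coef hT (a + 1) (b - t.val)).1 * (t + (k : ℕ)) + (coef hT (a + 1) (b - t.val)).2 ≠ 0 →
      (q k).1 * (t + (k : ℕ)) + (q k).2 =
        (coef hT (a + 1) (b - t.val)).1 * (t + (k : ℕ)) +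
          (coef hT (a + 1) (b - t.val)).2 := by
    intro t k h1 h2
    have c1 := coef_spec hT a (b + (k : ℕ)) (t.val + k) (hcol t k) (by rw [cast_t]; exact h1)
    have c2 := coef_spec hT (a + 1) (b - t.val) (t.val + k) (hcol t k) (by rw [cast_t]; exact h2)
    rw [show (a + 1) * ((t.val + k : ℕ) : ℤ) + (b - t.val) =
      a * ((t.val + k : ℕ) : ℤ) + (b + (k : ℕ)) by push_cast; ring, c1] at c2
    rwa [cast_t] at c2
  choose r hr using fun k : Fin 5 =>
    zeros_small (p := p) (α := (q k).1) (β := (q k).2) (coef_ne hT _ _)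
  set good : Finset (ZMod p) := univ \ univ.image fun k : Fin 5 => r k - ((k : ℕ) : ZMod p)
    with hgood
  have hgcard : 15 ≤ good.card := by
    rw [hgood, card_sdiff_of_subset (subset_univ _), card_univ, ZMod.card]
    have : (univ.image fun k : Fin 5 => r k - ((k : ℕ) : ZMod p)).card ≤ 5 := card_image_le
    omega
  have hgnz : ∀ t ∈ good, ∀ k : Fin 5, (q k).1 * (t + (k : ℕ)) + (q k).2 ≠ 0 := by
    intro t ht k h0
    simp only [hgood, mem_sdiff, mem_univ, mem_image, true_and, not_exists] at ht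
    exact ht k (by rw [← hr k _ h0]; ring)
  have hsel : ∀ t : ZMod p, ∃ k₀ : Fin 5, ∀ k : Fin 5, k ≠ k₀ →
      (coef hT (a + 1) (b - t.val)).1 * (t + (k : ℕ)) +
        (coef hT (a + 1) (b - t.val)).2 ≠ 0 := by
    intro t
    by_cases h : ∃ k₀ : Fin 5, (coef hT (a + 1) (b - t.val)).1 * (t + (k₀ : ℕ)) +
        (coef hT (a + 1) (b - t.val)).2 = 0
    · obtain ⟨k₀, hk₀⟩ := h
      obtain ⟨s, hs⟩ := zeros_small (coef_ne hT (a + 1) (b - t.val))
      refine ⟨k₀, fun k hk h0 => hk (natCast_inj_five hp20 (add_left_cancel (a := t) ?_))⟩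
      exact (hs _ h0).trans (hs _ hk₀).symm
    · simp only [not_exists] at h
      exact ⟨0, fun k _ => h k⟩
  choose sel hsel using hsel
  obtain ⟨k₀, -, hk₀⟩ := exists_lt_card_fiber_of_mul_lt_card_of_maps_to (s := good)
    (t := (univ : Finset (Fin 5))) (f := sel) (n := 2) (fun _ _ => mem_univ _)
    (by rw [card_univ, Fintype.card_fin]; omega)
  set R := good.filter fun t => sel t = k₀
  have hR : ∀ t ∈ R, ∀ k, k ≠ k₀ → (q k).1 * (t + (k : ℕ)) + (q k).2 =
      (coef hT (a + 1) (b - t.val)).1 * (t + (k : ℕ)) + (coef hT (a + 1) (b - t.val)).2 := by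
    intro t ht k hk
    simp only [R, mem_filter] at ht
    exact e t k (hgnz t ht.1 k) (hsel t k (ht.2 ▸ hk))
  obtain ⟨t₁, t₂, t₃, ht₁, ht₂, ht₃, h12, h13, h23⟩ := two_lt_card_iff.1 hk₀
  set L₁ := coef hT (a + 1) (b - t₁.val)
  set L₂ := coef hT (a + 1) (b - t₂.val)
  have hd : t₁ - t₂ ≠ 0 := sub_ne_zero.2 h12
  set ε := (L₁.1 - L₂.1) / (t₁ - t₂)
  set α₀ := (L₁.1 * (t₁ - b) + L₁.2 - L₂.1 * (t₂ - b) - L₂.2) / (t₁ - t₂)
  set β₀ := L₁.1 * (t₁ - b) + L₁.2 - α₀ * (t₁ - b)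
  set γ := L₁.1 - α₀ - ε * (t₁ - b)
  have hε : ε * (t₁ - t₂) = L₁.1 - L₂.1 := div_mul_cancel₀ _ hd
  have hα : α₀ * (t₁ - t₂) = L₁.1 * (t₁ - b) + L₁.2 - L₂.1 * (t₂ - b) - L₂.2 :=
    div_mul_cancel₀ _ hd
  have hfam : ∀ k, k ≠ k₀ → q k = fam ε α₀ β₀ γ ((b : ZMod p) + (k : ℕ)) := by
    intro k hk
    have e1 := hR t₁ ht₁ k hk
    have e2 := hR t₂ ht₂ k hk
    have h1 : (q k).1 = α₀ + ε * ((b : ZMod p) + (k : ℕ)) := by
      refine mul_right_cancel₀ hd ?_
      linear_combination e1 - e2 - hα - ((b : ZMod p) + (k : ℕ)) * hε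
    refine Prod.ext h1 ?_
    simp only [fam]
    linear_combination e1 - (t₁ + (k : ℕ)) * h1
  refine ⟨ε, α₀, β₀, γ, ?_, fun k hk => ?_⟩
  · rintro ⟨h1, h2, h3, h4⟩
    obtain ⟨k, hk⟩ := exists_ne k₀
    exact coef_ne' hT _ _ ((hfam k hk).trans (by simp [fam, h1, h2, h3, h4]))
  rcases eq_or_ne k k₀ with rfl | hne
  swap; · exact hfam k hne
  set F := fam ε α₀ β₀ γ ((b : ZMod p) + (k : ℕ)) with hF
  have hlin : ∀ t ∈ R, (coef hT (a + 1) (b - t.val)).1 * (t + (k : ℕ)) +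
      (coef hT (a + 1) (b - t.val)).2 = F.1 * (t + (k : ℕ)) + F.2 := by
    intro t ht
    obtain ⟨i, hi⟩ : ∃ i : Fin 5, i ≠ k := exists_ne k
    obtain ⟨i', hi', hii⟩ : ∃ i' : Fin 5, i' ≠ k ∧ i' ≠ i := by
      have : ∀ k i : Fin 5, ∃ i' : Fin 5, i' ≠ k ∧ i' ≠ i := by decide
      exact this k i
    have e1 := hR t ht i hi
    have e2 := hR t ht i' hi'
    rw [hfam i hi] at e1
    rw [hfam i' hi'] at e2
    set M := coef hT (a + 1) (b - t.val)
    have hne : ((i' : ℕ) : ZMod p) - (i : ℕ) ≠ 0 :=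
      sub_ne_zero.2 fun h => hii (natCast_inj_five hp20 h)
    simp only [fam, hF] at e1 e2 ⊢
    have hM1 : M.1 = ε * (t - b) + α₀ + γ := by
      refine mul_right_cancel₀ hne ?_
      linear_combination e1 - e2
    linear_combination -e1 + (((k : ℕ) : ZMod p) - (i : ℕ)) * hM1
  have hFne : F.1 ≠ 0 ∨ F.2 ≠ 0 := by
    by_contra hc
    simp only [not_or, not_not] at hc
    exact hk (Prod.ext hc.1 hc.2)
  refine Prod.ext_iff.2 ?_
  obtain ⟨s, hs⟩ := zeros_small hFne
  have hnz : ∀ t ∈ R, t + (k : ℕ) ≠ s → (q k).1 * (t + (k : ℕ)) + (q k).2 =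
      F.1 * (t + (k : ℕ)) + F.2 := fun t ht hts => by
    rw [← hlin t ht]
    refine e t k (hgnz t (mem_filter.1 ht).1 k) ?_
    rw [hlin t ht]
    exact fun h => hts (hs _ h)
  have key : ∀ u ∈ R, ∀ v ∈ R, u ≠ v → u + (k : ℕ) ≠ s → v + (k : ℕ) ≠ s →
      (q k).1 = F.1 ∧ (q k).2 = F.2 := by
    intro u hu v hv huv hus hvs
    have e1 := hnz u hu hus
    have e2 := hnz v hv hvs
    have : ((q k).1 - F.1) * (u - v) = 0 := by linear_combination e1 - e2
    have h1 : (q k).1 = F.1 :=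
      sub_eq_zero.1 ((mul_eq_zero.1 this).resolve_right (sub_ne_zero.2 huv))
    exact ⟨h1, by linear_combination e1 - (u + (k : ℕ)) * h1⟩
  by_cases c1 : t₁ + (k : ℕ) = s
  · exact key t₂ ht₂ t₃ ht₃ h23 (fun h => h12 (add_right_cancel (c1.trans h.symm)))
      (fun h => h13 (add_right_cancel (c1.trans h.symm)))
  · by_cases c2 : t₂ + (k : ℕ) = s
    · exact key t₁ ht₁ t₃ ht₃ h13 c1 (fun h => h23 (add_right_cancel (c2.trans h.symm)))
    · exact key t₁ ht₁ t₂ ht₂ h12 c1 c2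

lemma slope_family (hp20 : 20 ≤ p) (a : ℤ) : ∃ ε α₀ β₀ γ : ZMod p,
    ¬(ε = 0 ∧ α₀ = 0 ∧ β₀ = 0 ∧ γ = 0) ∧
    ∀ b : ℤ, fam ε α₀ β₀ γ (b : ZMod p) ≠ 0 → coef hT a b = fam ε α₀ β₀ γ (b : ZMod p) := by
  choose ε α₀ β₀ γ hne hw using window hT hp20 a
  have hstep : ∀ b : ℤ, ε b = ε (b + 1) ∧ α₀ b = α₀ (b + 1) ∧ β₀ b = β₀ (b + 1) ∧
      γ b = γ (b + 1) := by
    intro b
    classical
    set P := fun k : Fin 4 => (b : ZMod p) + 1 + ((k : ℕ) : ZMod p)
    have hP : Function.Injective P := fun i k h => by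
      have := natCast_inj_five hp20 (i := i.castSucc) (k := k.castSucc) (add_left_cancel h)
      exact Fin.castSucc_injective _ this
    set bad : Finset (Fin 4) := univ.filter (fun k => fam (ε b) (α₀ b) (β₀ b) (γ b) (P k) = 0) ∪
      univ.filter (fun k => fam (ε (b + 1)) (α₀ (b + 1)) (β₀ (b + 1)) (γ (b + 1)) (P k) = 0)
    have hb : bad.card ≤ 2 := by
      have small : ∀ c, (univ.filter fun k => fam (ε c) (α₀ c) (β₀ c) (γ c) (P k) = 0).card ≤ 1 :=
        fun c => card_le_one.2 fun i hi k hk =>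
          hP (fam_zero_unique (hne c) (mem_filter.1 hi).2 (mem_filter.1 hk).2)
      have := card_union_le
        (univ.filter fun k => fam (ε b) (α₀ b) (β₀ b) (γ b) (P k) = 0)
        (univ.filter fun k => fam (ε (b + 1)) (α₀ (b + 1)) (β₀ (b + 1)) (γ (b + 1)) (P k) = 0)
      have := small b
      have := small (b + 1)
      simp only [bad]
      omega
    obtain ⟨i, hi, k, hk, hik⟩ := one_lt_card.1 (show 1 < (univ \ bad).card by
      rw [card_sdiff_of_subset (subset_univ _), card_univ, Fintype.card_fin]; omega)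
    simp only [bad, mem_sdiff, mem_univ, mem_union, mem_filter, true_and, not_or] at hi hk
    have key : ∀ i : Fin 4, fam (ε b) (α₀ b) (β₀ b) (γ b) (P i) ≠ 0 →
        fam (ε (b + 1)) (α₀ (b + 1)) (β₀ (b + 1)) (γ (b + 1)) (P i) ≠ 0 →
        fam (ε b) (α₀ b) (β₀ b) (γ b) (P i) =
          fam (ε (b + 1)) (α₀ (b + 1)) (β₀ (b + 1)) (γ (b + 1)) (P i) := by
      intro i h1 h2
      have e1 : (b : ZMod p) + ((i.succ : Fin 5) : ℕ) = P i := by simp [P]; ring
      have e2 : ((b + 1 : ℤ) : ZMod p) + ((i.castSucc : Fin 5) : ℕ) = P i := by simp [P]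
      have w1 := hw b i.succ (by rwa [e1])
      have w2 := hw (b + 1) i.castSucc (by rwa [e2])
      rw [e1] at w1
      rw [e2] at w2
      rw [← w1, ← w2]
      congr 1
      simp; ring
    exact fam_inj (fun h => hik (hP h)) (key i hi.1 hi.2) (key k hk.1 hk.2)
  have hconst : ∀ b : ℤ, ε b = ε 0 ∧ α₀ b = α₀ 0 ∧ β₀ b = β₀ 0 ∧ γ b = γ 0 := by
    intro b
    induction b using Int.induction_on with
    | zero => exact ⟨rfl, rfl, rfl, rfl⟩
    | succ n ih =>
      obtain ⟨a1, a2, a3, a4⟩ := hstep n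
      exact ⟨a1 ▸ ih.1, a2 ▸ ih.2.1, a3 ▸ ih.2.2.1, a4 ▸ ih.2.2.2⟩
    | pred n ih =>
      obtain ⟨a1, a2, a3, a4⟩ := hstep (-(n : ℤ) - 1)
      rw [sub_add_cancel] at a1 a2 a3 a4
      exact ⟨a1.trans ih.1, a2.trans ih.2.1, a3.trans ih.2.2.1, a4.trans ih.2.2.2⟩
  refine ⟨ε 0, α₀ 0, β₀ 0, γ 0, hne 0, fun b hb => ?_⟩
  obtain ⟨a1, a2, a3, a4⟩ := hconst b
  have := hw b 0
  simp only [Fin.val_zero, Nat.cast_zero, add_zero, a1, a2, a3, a4] at this
  exact this hb

lemma slope_step (hp20 : 20 ≤ p) {a : ℤ} {ε α₀ β₀ γ ε' α₀' β₀' γ' : ZMod p}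
    (hne : ¬(ε = 0 ∧ α₀ = 0 ∧ β₀ = 0 ∧ γ = 0))
    (h : ∀ b : ℤ, fam ε α₀ β₀ γ (b : ZMod p) ≠ 0 → coef hT a b = fam ε α₀ β₀ γ (b : ZMod p))
    (hne' : ¬(ε' = 0 ∧ α₀' = 0 ∧ β₀' = 0 ∧ γ' = 0))
    (h' : ∀ b : ℤ, fam ε' α₀' β₀' γ' (b : ZMod p) ≠ 0 →
      coef hT (a + 1) b = fam ε' α₀' β₀' γ' (b : ZMod p)) :
    ε = 0 ∧ ε' = 0 ∧ α₀' = α₀ + γ ∧ β₀' = β₀ ∧ γ' = γ := by
  classical
  set H := fun c : ZMod p => (α₀ + γ - ε * c, β₀ + γ * c - ε * c ^ 2)
  have hzero : ∀ x y, H x = 0 → H y = 0 → x = y := by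
    intro x y hx hy
    simp only [H, Prod.mk_eq_zero] at hx hy
    by_contra hne2
    have h1 : ε = 0 := (mul_eq_zero.1 (show ε * (x - y) = 0 by linear_combination hy.1 - hx.1))
      |>.resolve_right (sub_ne_zero.2 hne2)
    have h2 : γ = 0 := (mul_eq_zero.1 (show γ * (x - y) = 0 by
      linear_combination hx.2 - hy.2 + (x ^ 2 - y ^ 2) * h1)).resolve_right (sub_ne_zero.2 hne2)
    exact hne ⟨h1, by simpa [h1, h2] using hx.1, by simpa [h1, h2] using hx.2, h2⟩
  have hM : ∀ c : ℤ, H c ≠ 0 → coef hT (a + 1) c = H c := by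
    intro c hc
    set M := coef hT (a + 1) c
    have hH : (H c).1 ≠ 0 ∨ (H c).2 ≠ 0 := by
      by_contra hh
      simp only [not_or, not_not] at hh
      exact hc (Prod.ext hh.1 hh.2)
    have := affine_eq (coef_ne hT (a + 1) c) hH (by omega) fun x hx hx' => by
      have c2 := coef_spec hT (a + 1) c x.val (val_lt_sq x) (by simpa using hx)
      have e1 : fam ε α₀ β₀ γ ((c + x.val : ℤ) : ZMod p) =
          (α₀ + ε * ((c : ZMod p) + x), β₀ + γ * ((c : ZMod p) + x) -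
            ε * ((c : ZMod p) + x) ^ 2) := by
        simp [fam]
      have e2 : (α₀ + ε * ((c : ZMod p) + x)) * x +
          (β₀ + γ * ((c : ZMod p) + x) - ε * ((c : ZMod p) + x) ^ 2) =
          (H c).1 * x + (H c).2 := by simp only [H]; ring
      have hf : fam ε α₀ β₀ γ ((c + x.val : ℤ) : ZMod p) ≠ 0 := by
        rw [e1]; intro h0
        simp only [Prod.mk_eq_zero] at h0
        rw [h0.1, h0.2] at e2
        exact hx' (by rw [← e2]; simp)
      have c1 := coef_spec hT a (c + x.val) x.val (val_lt_sq x)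
        (by rw [h _ hf, e1, ZMod.natCast_zmod_val, e2]; exact hx')
      rw [h _ hf, e1, ZMod.natCast_zmod_val, e2] at c1
      rw [ZMod.natCast_zmod_val, show (a + 1) * (x.val : ℤ) + c = a * x.val + (c + x.val) by
        ring, c1] at c2
      exact c2.symm
    exact Prod.ext this.1 this.2
  obtain ⟨r, hr⟩ : ∃ r, ∀ x, H x = 0 → x = r := by
    by_cases hx : ∃ x, H x = 0
    · exact ⟨hx.choose, fun x h0 => hzero x _ h0 hx.choose_spec⟩
    · exact ⟨0, fun x h0 => absurd ⟨x, h0⟩ hx⟩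
  obtain ⟨r', hr'⟩ : ∃ r, ∀ x, fam ε' α₀' β₀' γ' x = 0 → x = r := by
    by_cases hx : ∃ x, fam ε' α₀' β₀' γ' x = 0
    · exact ⟨hx.choose, fun x h0 => fam_zero_unique hne' h0 hx.choose_spec⟩
    · exact ⟨0, fun x h0 => absurd ⟨x, h0⟩ hx⟩
  obtain ⟨x, hx, y, hy, z, hz, hxy, hxz, hyz⟩ := two_lt_card.1
    (show 2 < ((univ : Finset (ZMod p)) \ {r, r'}).card by
      rw [card_sdiff_of_subset (subset_univ _), card_univ, ZMod.card]
      have : ({r, r'} : Finset (ZMod p)).card ≤ 2 := card_le_two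
      omega)
  simp only [mem_sdiff, mem_univ, mem_insert, mem_singleton, true_and, not_or] at hx hy hz
  have key : ∀ x, x ≠ r → x ≠ r' → fam ε' α₀' β₀' γ' x = H x := fun x h1 h2 => by
    have ex : ((x.val : ℤ) : ZMod p) = x := by simp
    have k1 := hM x.val (by rw [ex]; exact fun h0 => h1 (hr x h0))
    have k2 := h' x.val (by rw [ex]; exact fun h0 => h2 (hr' x h0))
    rw [ex] at k1 k2
    exact k2.symm.trans k1
  have kx := key x hx.1 hx.2
  have ky := key y hy.1 hy.2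
  have kz := key z hz.1 hz.2
  simp only [fam, H, Prod.mk.injEq] at kx ky kz
  have h1 : ε' + ε = 0 := (mul_eq_zero.1 (show (ε' + ε) * (x - y) = 0 by
    linear_combination kx.1 - ky.1)).resolve_right (sub_ne_zero.2 hxy)
  have h2 : (γ' - γ) - (ε' - ε) * (x + y) = 0 := (mul_eq_zero.1 (show
    ((γ' - γ) - (ε' - ε) * (x + y)) * (x - y) = 0 by
      linear_combination kx.2 - ky.2)).resolve_right (sub_ne_zero.2 hxy)
  have h3 : (γ' - γ) - (ε' - ε) * (x + z) = 0 := (mul_eq_zero.1 (show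
    ((γ' - γ) - (ε' - ε) * (x + z)) * (x - z) = 0 by
      linear_combination kx.2 - kz.2)).resolve_right (sub_ne_zero.2 hxz)
  have h4 : ε' - ε = 0 := (mul_eq_zero.1 (show (ε' - ε) * (y - z) = 0 by
    linear_combination h3 - h2)).resolve_right (sub_ne_zero.2 hyz)
  have h5 : (2 : ZMod p) ≠ 0 := by
    rw [show (2 : ZMod p) = ((2 : ℕ) : ZMod p) by norm_num, Ne,
      ZMod.natCast_eq_zero_iff]
    intro hd
    have := Nat.le_of_dvd (by norm_num) hd
    omega
  have hε : ε = 0 := (mul_eq_zero.1 (show (2 : ZMod p) * ε = 0 by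
    linear_combination h1 - h4)).resolve_left h5
  have hγ : γ' = γ := by linear_combination h2 + (x + y) * h4
  exact ⟨hε, by linear_combination h4 + hε, by linear_combination kx.1 - x * h1,
    by linear_combination kx.2 - x * hγ + x ^ 2 * h4, hγ⟩

include hT hp20 in
/-- Every board is affine off the zero set of some nonzero affine function. -/
theorem exists_affine :
    ∃ l μ K : ZMod p, ¬(l = 0 ∧ μ = 0 ∧ K = 0) ∧ Affine p T l μ K := by
  choose ε α₀ β₀ γ hne h using slope_family hT hp20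
  obtain ⟨hε, -, -, -, -⟩ := slope_step hT hp20 (hne 0) (h 0) (hne (0 + 1)) (h (0 + 1))
  refine ⟨γ 0, α₀ 0, β₀ 0, fun hc => hne 0 ⟨hε, hc.2.1, hc.2.2, hc.1⟩, fun j hj m hm => ?_⟩
  have hf : fam (ε 0) (α₀ 0) (β₀ 0) (γ 0) (m : ZMod p) ≠ 0 := fun h0 => hm (by
    simp only [fam, Prod.mk_eq_zero] at h0
    linear_combination (j : ZMod p) * h0.1 + h0.2 + ((m : ZMod p) ^ 2 - m * j) * hε)
  have hcq := h 0 m hf
  have := coef_spec hT 0 m j hj (by
    rw [hcq]; simp only [fam, hε]; intro h0; exact hm (by linear_combination h0))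
  rw [hcq, zero_mul, zero_add] at this
  rw [this]; simp only [fam, hε]; ring

include hT hp20 in
/-- The slope of an affine function for the board is the slope of its lines. -/
lemma slope_coef {l μ K : ZMod p} (hA : Affine p T l μ K) (a b : ℤ) (j : ℕ) (hj : j < p * p)
    (hne : (l * a + μ) * j + (l * b + K) ≠ 0) :
    T j (a * j + b) = (l * a + μ) * j + (l * b + K) := by
  have e : l * ((a * j + b : ℤ) : ZMod p) + μ * j + K = (l * a + μ) * j + (l * b + K) := by
    push_cast; ring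
  rw [← e] at hne ⊢
  exact hA j hj _ hne

/-- Seeds: some lines have one prescribed value on the whole class of zero. -/
def Seeded (p : ℕ) (T : ℕ → ℤ → ZMod p) : Prop :=
  ∃ (a b a' b' : ℤ) (v v' : ZMod p), v ≠ v' ∧
    (∀ i, i < p → T (p * i) (a * ((p * i : ℕ) : ℤ) + b) = v) ∧
    (∀ i, i < p → T (p * i) (a' * ((p * i : ℕ) : ℤ) + b') = v')

include hT hp20 in
lemma slope_ne_of_seeded {l μ K : ZMod p} (hn : ¬(l = 0 ∧ μ = 0 ∧ K = 0))
    (hA : Affine p T l μ K) (hs : Seeded p T) : l ≠ 0 := by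
  obtain ⟨a, b, a', b', v, v', hvv, h, h'⟩ := hs
  intro hl
  have hpp : 0 < p * p := by positivity
  by_cases hK : K = 0
  · have hμ : μ ≠ 0 := fun e => hn ⟨hl, e, hK⟩
    obtain ⟨κ, hκ⟩ := line_root hT (by omega) a b (α := μ) (β := 0) hμ (fun j hj hne => by
      have := slope_coef hT hp20 hA a b j hj (by simpa [hl, hK] using hne)
      simpa [hl, hK] using this) (r := 0) (by omega) (by simp)
    obtain ⟨x, y, hxy, a1, -, b1, -⟩ :=
      exists_two (α := μ) (β := κ) (α' := μ) (β' := κ) (Or.inl hμ) (Or.inl hμ) (by omega)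
    have e1 := hκ x.val (ZMod.val_lt x) (by simpa using a1)
    have e2 := hκ y.val (ZMod.val_lt y) (by simpa using b1)
    rw [zero_add, h _ (ZMod.val_lt x), ZMod.natCast_zmod_val] at e1
    rw [zero_add, h _ (ZMod.val_lt y), ZMod.natCast_zmod_val] at e2
    exact hxy (mul_left_cancel₀ hμ (add_right_cancel (e1.symm.trans e2)))
  · have k := hA 0 hpp b (by simpa [hl] using hK)
    have k' := hA 0 hpp b' (by simpa [hl] using hK)
    have e := h 0 (by omega)
    have e' := h' 0 (by omega)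
    simp only [mul_zero, Nat.cast_zero, zero_add] at e e'
    rw [e] at k; rw [e'] at k'
    exact hvv (k.trans (by rw [k', hl]; ring))

end

/-- Boards with a sloped affine description have no vertical period. -/
theorem no_period (hp20 : 20 ≤ p) : ∀ P : ℕ, 0 < P → ∀ T : ℕ → ℤ → ZMod p, LinesIn p T →
    (∀ j, j < p * p → ∀ m : ℤ, T j (m + P) = T j m) →
    ∀ l μ K : ZMod p, l ≠ 0 → ¬ Affine p T l μ K := by
  intro P
  induction P using Nat.strong_induction_on with
  | _ P ih =>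
    intro hP T hT hper l μ K hl hA
    have hpp : 0 < p * p := by positivity
    obtain ⟨Q, hQ⟩ : p ∣ P := by
      rw [← ZMod.natCast_eq_zero_iff]
      by_contra hP0
      obtain ⟨x, hx⟩ := exists_avoid ({-K / l, -K / l - (P : ZMod p)} : Finset (ZMod p))
        (lt_of_le_of_lt card_le_two (by omega))
      simp only [Finset.mem_insert, Finset.mem_singleton, not_or] at hx
      have n1 : l * x + K ≠ 0 := fun h => hx.1 (by field_simp; linear_combination h)
      have n2 : l * (x + P) + K ≠ 0 := fun h => hx.2 (by field_simp; linear_combination h)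
      have e1 := hA 0 hpp x.val (by simpa using n1)
      have e2 := hA 0 hpp (x.val + P) (by simpa using n2)
      rw [hper 0 hpp] at e2
      rw [e2] at e1
      simp at e1
      rcases e1 with h | h <;> contradiction
    set a₀ : ℤ := ((-μ / l).val : ℤ)
    set b₀ : ℤ := ((-K / l).val : ℤ)
    have ha₀ : l * (a₀ : ZMod p) + μ = 0 := by simp [a₀]; field_simp; ring
    have hb₀ : l * (b₀ : ZMod p) + K = 0 := by simp [b₀]; field_simp; ring
    set G : ℕ → ℤ → ZMod p := fun j m => T j (b₀ + a₀ * j + (p : ℤ) * m) with hG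
    have hGl : LinesIn p G := fun a b => by
      obtain ⟨A, B, h⟩ := hT (a₀ + p * a) (b₀ + p * b)
      refine ⟨A, B, fun j hj => ?_⟩
      rw [← h j hj]
      simp only [hG]; congr 1; ring
    have hQ0 : 0 < Q := Nat.pos_of_ne_zero fun e => by simp [e] at hQ; omega
    have hQP : Q < P := by
      rw [hQ]; exact lt_mul_left hQ0 hp.out.one_lt
    have hGp : ∀ j, j < p * p → ∀ m : ℤ, G j (m + Q) = G j m := fun j hj m => by
      simp only [hG]
      rw [show b₀ + a₀ * j + (p : ℤ) * (m + Q) = b₀ + a₀ * j + (p : ℤ) * m + (P : ℤ) by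
        rw [hQ]; push_cast; ring]
      exact hper j hj _
    obtain ⟨l', μ', K', hn', hA'⟩ := exists_affine hGl hp20
    refine ih Q hQP hQ0 G hGl hGp l' μ' K' ?_ hA'
    intro hl'
    -- a class of columns on which `G` would be constant carries a nonconstant affine pattern
    obtain ⟨x, hx⟩ : ∃ x : ZMod p, μ' * x + K' ≠ 0 := by
      by_cases hμ' : μ' = 0
      · exact ⟨0, by simpa using fun e => hn' ⟨hl', hμ', e⟩⟩
      · obtain ⟨x, -, -, hx, -⟩ :=
          exists_two (α := μ') (β := K') (α' := μ') (β' := K') (Or.inl hμ') (Or.inl hμ')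
            (by omega)
        exact ⟨x, hx⟩
    set a := a₀ + 1
    set b := b₀ - (x.val : ℤ)
    have hα : l * (a : ZMod p) + μ = l := by simp [a]; linear_combination ha₀
    obtain ⟨κ, hκ⟩ := line_root hT (by omega) a b (α := l * (a : ZMod p) + μ)
      (β := l * (b : ZMod p) + K) (by rwa [hα]) (fun j hj hne => slope_coef hT hp20 hA a b j hj hne)
      (r := x.val) (ZMod.val_lt x) (by rw [hα]; simp [b]; linear_combination hb₀)
    have hconst : ∀ i, i < p → T (x.val + p * i) (a * ((x.val + p * i : ℕ) : ℤ) + b) =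
        μ' * x + K' := by
      intro i hi
      have hj : x.val + p * i < p * p := by
        have := Nat.mul_le_mul_left p (show i + 1 ≤ p by omega)
        rw [mul_add, mul_one] at this
        have := ZMod.val_lt x
        omega
      rw [show a * ((x.val + p * i : ℕ) : ℤ) + b =
        b₀ + a₀ * ((x.val + p * i : ℕ) : ℤ) + (p : ℤ) * i by simp [a, b]; ring]
      have := hA' (x.val + p * i) hj i (by simpa [hl'] using hx)
      simpa [hl', hG] using this
    rw [hα] at hκ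
    obtain ⟨u, v, huv, a1, -, b1, -⟩ :=
      exists_two (α := l) (β := κ) (α' := l) (β' := κ) (Or.inl hl) (Or.inl hl) (by omega)
    have e1 := hκ u.val (ZMod.val_lt u) (by simpa using a1)
    have e2 := hκ v.val (ZMod.val_lt v) (by simpa using b1)
    rw [hconst _ (ZMod.val_lt u), ZMod.natCast_zmod_val] at e1
    rw [hconst _ (ZMod.val_lt v), ZMod.natCast_zmod_val] at e2
    exact huv (mul_left_cancel₀ hl (add_right_cancel (e1.symm.trans e2)))

/-- Seeded boards have no vertical period. -/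
theorem seeded_no_period (hp20 : 20 ≤ p) {T : ℕ → ℤ → ZMod p} (hT : LinesIn p T)
    (hs : Seeded p T) {P : ℕ} (hP : 0 < P) :
    ¬ ∀ j, j < p * p → ∀ m : ℤ, T j (m + P) = T j m := by
  intro hper
  obtain ⟨l, μ, K, hn, hA⟩ := exists_affine hT hp20
  exact no_period hp20 P hP T hT hper l μ K (slope_ne_of_seeded hT hp20 hn hA hs) hA

end Vale.Agent.P043.Board
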