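import Mathlib

/-!
A rigid bumped cube in `Fin d → ℝ`, turning finite tiles of `Fin d → ℤ` into measurable tiles.
-/

open MeasureTheory Set Function

namespace Vale.Agent.P043.Euclid

variable {d : ℕ}

/-- Lower corner of the dent at face `k`. -/
def lo (k l : Fin d) : ℝ := if l = k then 0 else 4

/-- The scaled lattice embedding. -/
def toR (d : ℕ) : (Fin d → ℤ) →+ (Fin d → ℝ) where
  toFun z := fun l => 10 * (z l : ℝ)
  map_zero' := by ext; simp
  map_add' z w := by ext; simp [mul_add]

lemma toR_apply (z : Fin d → ℤ) (l : Fin d) : toR d z l = 10 * (z l : ℝ) := rfl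

lemma toR_single (k : Fin d) : toR d (Pi.single k 1) = Pi.single k 10 := by
  ext l
  rw [toR_apply]
  by_cases h : l = k <;> simp [h]

lemma toR_injective : Injective (toR d) := fun z w h => funext fun l => by
  have := congrFun h l
  simpa [toR_apply] using this

/-- Membership in the dent at face `k`. -/
def InDent (k : Fin d) (x : Fin d → ℝ) : Prop := ∀ l, lo k l ≤ x l ∧ x l < lo k l + 1

/-- The bumped cube. -/
def piece (d : ℕ) : Set (Fin d → ℝ) :=
  {x | ((∀ l, 0 ≤ x l ∧ x l < 10) ∧ ∀ k, ¬ InDent k x) ∨ ∃ k, InDent k (x - Pi.single k 10)}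

/-- An open set inside the bumped cube. -/
def core (d : ℕ) : Set (Fin d → ℝ) :=
  {x | ((∀ l, 0 < x l ∧ x l < 10) ∧ ∀ k : Fin d, ∃ l, x l < lo k l ∨ lo k l + 1 < x l) ∨
    ∃ k : Fin d, ∀ l, lo k l + (Pi.single k 10 : Fin d → ℝ) l < x l ∧
      x l < lo k l + (Pi.single k 10 : Fin d → ℝ) l + 1}

lemma lo_nonneg (k l : Fin d) : 0 ≤ lo k l := by unfold lo; split_ifs <;> norm_num

lemma lo_le (k l : Fin d) : lo k l ≤ 4 := by unfold lo; split_ifs <;> norm_num

lemma inDent_unique {k k' : Fin d} {x : Fin d → ℝ} (h : InDent k x) (h' : InDent k' x) :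
    k = k' := by
  by_contra hne
  have a := h k
  have b := h' k
  simp [lo, hne] at a b
  linarith

lemma isOpen_core : IsOpen (core d) := by
  have hc : ∀ l, Continuous fun x : Fin d → ℝ => x l := fun l => continuous_apply l
  simp only [core, Set.ofPred_or, Set.ofPred_and, Set.ofPred_forall, Set.ofPred_exists]
  refine IsOpen.union (IsOpen.inter (isOpen_iInter_of_finite fun l => ?_)
    (isOpen_iInter_of_finite fun k => isOpen_iUnion fun l => ?_))
    (isOpen_iUnion fun k => isOpen_iInter_of_finite fun l => ?_)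
  · exact (isOpen_lt continuous_const (hc l)).inter (isOpen_lt (hc l) continuous_const)
  · exact (isOpen_lt (hc l) continuous_const).union (isOpen_lt continuous_const (hc l))
  · exact (isOpen_lt continuous_const (hc l)).inter (isOpen_lt (hc l) continuous_const)

lemma core_subset : core d ⊆ piece d := by
  rintro x (⟨hb, hd⟩ | ⟨k, hk⟩)
  · refine Or.inl ⟨fun l => ⟨(hb l).1.le, (hb l).2⟩, fun k hk => ?_⟩
    obtain ⟨l, hl | hl⟩ := hd k <;> have := hk l <;> linarith
  · exact Or.inr ⟨k, fun l => by
      have := hk l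
      simp only [Pi.sub_apply]
      constructor <;> linarith⟩

/-- Every point of an open set inside the piece is near the core. -/
lemma piece_regular {U : Set (Fin d → ℝ)} (hU : IsOpen U) {x : Fin d → ℝ} (hxU : x ∈ U)
    (hx : x ∈ piece d) : ∃ y ∈ U, y ∈ core d := by
  obtain ⟨ε, hε, hball⟩ := Metric.isOpen_iff.1 hU x hxU
  have key : ∀ δ : ℝ, 0 < δ → δ < ε → (fun l => x l + δ) ∈ U := fun δ h1 h2 => hball (by
    rw [Metric.mem_ball, dist_pi_lt_iff hε]
    intro l
    simp [Real.dist_eq, abs_of_pos h1, h2])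
  rcases hx with ⟨hb, hd⟩ | ⟨k, hk⟩
  · have h1 : ∀ k : Fin d, ∃ l, ∃ η : ℝ, 0 < η ∧
        ∀ δ, 0 < δ → δ < η → x l + δ < lo k l ∨ lo k l + 1 < x l + δ := by
      intro k
      have := hd k
      simp only [InDent, not_forall, not_and, not_lt] at this
      obtain ⟨l, hl⟩ := this
      rcases lt_or_ge (x l) (lo k l) with h | h
      · exact ⟨l, lo k l - x l, by linarith, fun δ _ h2 => Or.inl (by linarith)⟩
      · exact ⟨l, 1, one_pos, fun δ h1 _ => Or.inr (by linarith [hl h])⟩
    choose lk η hη0 hη using h1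
    have hev : ∀ᶠ δ : ℝ in nhdsWithin 0 (Ioi 0), δ < ε ∧ (∀ l, x l + δ < 10) ∧ ∀ k, δ < η k := by
      refine nhdsWithin_le_nhds ?_
      refine (gt_mem_nhds hε).and ((Filter.eventually_all.2 fun l => ?_).and
        (Filter.eventually_all.2 fun k => gt_mem_nhds (hη0 k)))
      exact (((continuous_const.add continuous_id).tendsto' 0 (x l) (by simp))).eventually
        (gt_mem_nhds (hb l).2)
    obtain ⟨δ, ⟨hδε, hδb, hδη⟩, hδ0⟩ := (hev.and self_mem_nhdsWithin).exists
    exact ⟨_, key δ hδ0 hδε, Or.inl ⟨fun l => ⟨by linarith [(hb l).1], hδb l⟩,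
      fun k => ⟨lk k, hη k δ hδ0 (hδη k)⟩⟩⟩
  · have hev : ∀ᶠ δ : ℝ in nhdsWithin 0 (Ioi 0),
        δ < ε ∧ ∀ l, x l + δ < lo k l + (Pi.single k 10 : Fin d → ℝ) l + 1 := by
      refine nhdsWithin_le_nhds ((gt_mem_nhds hε).and (Filter.eventually_all.2 fun l => ?_))
      refine ((continuous_const.add continuous_id).tendsto' 0 (x l) (by simp)).eventually
        (gt_mem_nhds ?_)
      have := (hk l).2
      simp only [Pi.sub_apply] at this
      linarith
    obtain ⟨δ, ⟨hδε, hδb⟩, hδ0⟩ := (hev.and self_mem_nhdsWithin).exists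
    refine ⟨_, key δ hδ0 hδε, Or.inr ⟨k, fun l => ⟨?_, hδb l⟩⟩⟩
    have := (hk l).1
    simp only [Pi.sub_apply] at this
    linarith

/-- The lattice translates of the piece cover everything exactly once. -/
lemma piece_lattice (x : Fin d → ℝ) : ∃! z, x - toR d z ∈ piece d := by
  classical
  have hfl : ∀ (r : Fin d → ℝ) (w : Fin d → ℤ), (∀ l, 0 ≤ r l ∧ r l < 10) → x = r + toR d w →
      w = fun l => ⌊x l / 10⌋ := by
    intro r w hr e
    funext l
    rw [eq_comm, Int.floor_eq_iff, e, Pi.add_apply, toR_apply]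
    have := hr l
    constructor
    · rw [le_div_iff₀ (by norm_num : (0 : ℝ) < 10)]; linarith
    · rw [div_lt_iff₀ (by norm_num : (0 : ℝ) < 10)]; linarith
  have split : ∀ y ∈ piece d, ∃ (r : Fin d → ℝ) (w : Fin d → ℤ), y = r + toR d w ∧
      (∀ l, 0 ≤ r l ∧ r l < 10) ∧
      ((w = 0 ∧ ∀ k, ¬ InDent k r) ∨ ∃ k, w = Pi.single k 1 ∧ InDent k r) := by
    rintro y (⟨hb, hd⟩ | ⟨k, hk⟩)
    · exact ⟨y, 0, by simp, hb, Or.inl ⟨rfl, hd⟩⟩
    · refine ⟨y - Pi.single k 10, Pi.single k 1, by rw [toR_single]; abel, fun l => ?_,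
        Or.inr ⟨k, rfl, hk⟩⟩
      have := hk l
      have := lo_nonneg k l
      have := lo_le k l
      constructor <;> linarith
  set W : Fin d → ℤ := fun l => ⌊x l / 10⌋ with hW
  set r₀ := x - toR d W with hr₀
  have hr₀b : ∀ l, 0 ≤ r₀ l ∧ r₀ l < 10 := by
    intro l
    have h1 := Int.floor_le (x l / 10)
    have h2 := Int.lt_floor_add_one (x l / 10)
    simp only [hr₀, Pi.sub_apply, toR_apply, hW]
    rw [le_div_iff₀ (by norm_num : (0 : ℝ) < 10)] at h1
    rw [div_lt_iff₀ (by norm_num : (0 : ℝ) < 10)] at h2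
    constructor <;> linarith
  have uniq : ∀ z, x - toR d z ∈ piece d → ∃ w, z + w = W ∧
      ((w = 0 ∧ ∀ k, ¬ InDent k r₀) ∨ ∃ k, w = Pi.single k 1 ∧ InDent k r₀) := by
    intro z hz
    obtain ⟨r, w, e, hb, hc⟩ := split _ hz
    have e' : x = r + toR d (z + w) := by rw [map_add]; linear_combination e
    have hzw : z + w = W := hfl r _ hb e'
    have : r = r₀ := by rw [hr₀, e', hzw]; abel
    exact ⟨w, hzw, this ▸ hc⟩
  by_cases h : ∃ k, InDent k r₀
  · obtain ⟨k, hk⟩ := h
    refine ⟨W - Pi.single k 1, Or.inr ⟨k, ?_⟩, fun z hz => ?_⟩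
    · rw [map_sub, toR_single, show x - (toR d W - Pi.single k 10) - Pi.single k 10 = r₀ by
        rw [hr₀]; abel]
      exact hk
    · obtain ⟨w, e, ⟨-, hn⟩ | ⟨k', rfl, hk'⟩⟩ := uniq z hz
      · exact absurd hk (hn k)
      · rw [← e, inDent_unique hk hk', add_sub_cancel_right]
  · simp only [not_exists] at h
    refine ⟨W, Or.inl ⟨hr₀b, h⟩, fun z hz => ?_⟩
    obtain ⟨w, e, ⟨rfl, -⟩ | ⟨k', -, hk'⟩⟩ := uniq z hz
    · simpa using e
    · exact absurd hk' (h k')

/-- The open cube inside the core. -/
lemma inner_core {y : Fin d → ℝ} (h : ∀ l, 1 < y l ∧ y l < 10) : y ∈ core d :=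
  Or.inl ⟨fun l => ⟨by linarith [(h l).1], (h l).2⟩,
    fun k => ⟨k, Or.inr (by simpa [lo] using (h k).1)⟩⟩

section Rigid

variable {C : Set (Fin d → ℝ)}
  (h1 : ∀ a ∈ C, ∀ b ∈ C, ∀ y, y - a ∈ core d → y - b ∈ core d → a = b)
  (h2 : ∀ U : Set (Fin d → ℝ), IsOpen U → U.Nonempty → ∃ c ∈ C, ∃ y ∈ U, y - c ∈ core d)

include h1 in
lemma close_eq {a b : Fin d → ℝ} (ha : a ∈ C) (hb : b ∈ C) (h : ∀ l, |b l - a l| < 9) : a = b := by
  refine h1 a ha b hb (fun l => (max (a l) (b l) + 1 + (min (a l) (b l) + 10)) / 2)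
    (inner_core fun l => ?_) (inner_core fun l => ?_)
  all_goals
    have := abs_lt.1 (h l)
    simp only [Pi.sub_apply]
    rcases le_total (a l) (b l) with hle | hle
    · rw [max_eq_right hle, min_eq_left hle]; constructor <;> linarith
    · rw [max_eq_left hle, min_eq_right hle]; constructor <;> linarith

include h1 in
lemma near {a b : Fin d → ℝ} (hd : 2 ≤ d) (ha : a ∈ C) (hb : b ∈ C) (i : Fin d) {x : Fin d → ℝ}
    (hx : ∀ l, lo i l < x l ∧ x l < lo i l + 1) (hxb : x + a - b ∈ core d) :
    ∀ l, lo i l < x l - (b - a + Pi.single i 10 : Fin d → ℝ) l ∧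
      x l - (b - a + Pi.single i 10 : Fin d → ℝ) l < lo i l + 1 := by
  rcases hxb with ⟨hbox, hout⟩ | ⟨k, hk⟩
  · exfalso
    have hvl : ∀ l, l ≠ i → -6 < (b - a) l ∧ (b - a) l < 5 := by
      intro l hl
      have := hbox l
      have := hx l
      simp [lo, hl] at *
      constructor <;> linarith
    have hvi : -10 < (b - a) i ∧ (b - a) i < 1 := by
      have := hbox i
      have := hx i
      simp [lo] at *
      constructor <;> linarith
    by_cases hsmall : -9 < (b - a) i
    · have hab : a = b := close_eq h1 ha hb fun l => by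
        rw [abs_lt]
        rcases eq_or_ne l i with rfl | hl
        · simp at hvi hsmall; constructor <;> linarith
        · have := hvl l hl; simp at this; constructor <;> linarith
      subst hab
      obtain ⟨l, hl⟩ := hout i
      have := hx l
      simp at hl
      rcases hl with hl | hl <;> linarith
    · have hm : ∃ m : Fin d, m ≠ i := by
        haveI := Fin.nontrivial_iff_two_le.2 hd
        exact exists_ne i
      obtain ⟨m, hm⟩ := hm
      set L : Fin d → ℝ := fun l => max 1 (1 + (b - a) l)
      set y : Fin d → ℝ := fun l => if l = i then (10 + (b - a) i) / 2 else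
        if L l + 1 / 2 < 4 then L l + 1 / 2 else L l + 8 / 5 with hy
      have hyl : ∀ l, l ≠ i → (1 < y l ∧ y l < 10) ∧
          (1 < y l - (b - a) l ∧ y l - (b - a) l < 10) ∧ (y l < 4 ∨ 5 < y l) := by
        intro l hl
        have := hvl l hl
        simp only [hy, if_neg hl, L]
        rcases le_total 1 (1 + (b - a) l) with hle | hle
        · rw [max_eq_right hle]
          split_ifs with hs
          · exact ⟨⟨by linarith, by linarith⟩, ⟨by linarith, by linarith⟩, Or.inl hs⟩
          · exact ⟨⟨by linarith, by linarith⟩, ⟨by linarith, by linarith⟩, Or.inr (by linarith)⟩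
        · rw [max_eq_left hle]
          split_ifs with hs
          · exact ⟨⟨by linarith, by linarith⟩, ⟨by linarith, by linarith⟩, Or.inl hs⟩
          · exfalso; linarith
      have hyi : y i = (10 + (b - a) i) / 2 := if_pos rfl
      have hab : a = b := by
        refine h1 a ha b hb (y + a) ?_ ?_
        · rw [add_sub_cancel_right]
          refine Or.inl ⟨fun l => ?_, fun k => ?_⟩
          · rcases eq_or_ne l i with rfl | hl
            · rw [hyi]; constructor <;> linarith
            · have := (hyl l hl).1; constructor <;> linarith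
          · rcases eq_or_ne k i with rfl | hk
            · refine ⟨m, ?_⟩
              simp only [lo, if_neg hm]
              rcases (hyl m hm).2.2 with h | h
              · exact Or.inl h
              · exact Or.inr (by linarith)
            · refine ⟨i, Or.inl ?_⟩
              simp only [lo, if_neg (Ne.symm hk), hyi]
              linarith
        · refine inner_core fun l => ?_
          rcases eq_or_ne l i with rfl | hl
          · simp only [Pi.sub_apply, Pi.add_apply, hyi]
            simp only [Pi.sub_apply] at hvi hsmall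
            constructor <;> linarith
          · have := (hyl l hl).2.1
            simp only [Pi.sub_apply, Pi.add_apply] at this ⊢
            constructor <;> linarith
      subst hab
      simp at hsmall
  · have hki : k = i := by
      by_contra hki
      have hab : a = b := close_eq h1 ha hb fun l => by
        have h' := hk l
        have := hx l
        have := lo_nonneg i l
        have := lo_le i l
        rw [abs_lt]
        rcases eq_or_ne l k with rfl | hl
        · simp [lo, hki] at *; constructor <;> linarith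
        · simp [hl, lo] at h' ⊢
          constructor <;> linarith
      subst hab
      have := hk k
      have := hx k
      simp [lo, hki] at *
      linarith
    subst hki
    intro l
    have := hk l
    simp only [Pi.sub_apply, Pi.add_apply] at this ⊢
    constructor <;> linarith

include h1 h2 in
lemma pred_mem {a : Fin d → ℝ} (hd : 2 ≤ d) (ha : a ∈ C) (i : Fin d) :
    a - Pi.single i 10 ∈ C := by
  have hc : ∀ l, Continuous fun x : Fin d → ℝ => x l := fun l => continuous_apply l
  have covered : ∀ u v : Fin d → ℝ, (∀ l, lo i l ≤ u l ∧ u l < v l ∧ v l ≤ lo i l + 1) →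
      ∃ b ∈ C, ∃ x : Fin d → ℝ, (∀ l, u l < x l ∧ x l < v l) ∧
        ∀ l, lo i l < x l - (b - a + Pi.single i 10 : Fin d → ℝ) l ∧
          x l - (b - a + Pi.single i 10 : Fin d → ℝ) l < lo i l + 1 := by
    intro u v huv
    obtain ⟨b, hb, y, hy, hyb⟩ := h2 {y | ∀ l, u l < y l - a l ∧ y l - a l < v l} (by
      simp only [Set.ofPred_forall, Set.ofPred_and]
      exact isOpen_iInter_of_finite fun l => (isOpen_lt continuous_const
        ((hc l).sub continuous_const)).inter (isOpen_lt ((hc l).sub continuous_const)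
          continuous_const))
      ⟨fun l => a l + (u l + v l) / 2, fun l => by
        have := huv l
        constructor <;> linarith⟩
    refine ⟨b, hb, y - a, hy, near h1 hd ha hb i (fun l => ?_) (by rwa [sub_add_cancel])⟩
    have := huv l
    have := hy l
    simp only [Pi.sub_apply]
    constructor <;> linarith
  have small : ∀ {b : Fin d → ℝ} {x : Fin d → ℝ} {l : Fin d}, lo i l < x l → x l < lo i l + 1 →
      (lo i l < x l - (b - a + Pi.single i 10 : Fin d → ℝ) l ∧
        x l - (b - a + Pi.single i 10 : Fin d → ℝ) l < lo i l + 1) →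
      |(b - a + Pi.single i 10 : Fin d → ℝ) l| < 1 := fun a1 a2 h => by
    rw [abs_lt]; constructor <;> linarith [h.1, h.2]
  obtain ⟨b, hb, x, hx, hxw⟩ := covered (lo i) (fun l => lo i l + 1) (fun l => by simp)
  have hw := fun l => small (hx l).1 (hx l).2 (hxw l)
  suffices h0 : b - a + Pi.single i 10 = 0 by
    rw [show a - Pi.single i 10 = b by linear_combination (norm := abel) -h0]
    exact hb
  funext l
  set w := (b - a + Pi.single i 10 : Fin d → ℝ) l with hwl
  by_contra hne
  have hwb : |w| < 1 := hw l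
  rw [abs_lt] at hwb
  rw [Pi.zero_apply] at hne
  rcases lt_or_gt_of_ne hne with hneg | hpos
  · obtain ⟨b', hb', x', hx', hxw'⟩ := covered (Function.update (lo i) l (lo i l + 1 + w))
      (fun l => lo i l + 1) (fun l' => by
        rcases eq_or_ne l' l with h | h
        · rw [h, Function.update_self]; exact ⟨by linarith, by linarith, le_rfl⟩
        · rw [Function.update_of_ne h]; exact ⟨le_rfl, by linarith, le_rfl⟩)
    have hb0 : b = b' := close_eq h1 hb hb' fun l' => by
      have e1 := abs_lt.1 (hw l')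
      have hlow : lo i l' < x' l' := by
        have hu := (hx' l').1
        rcases eq_or_ne l' l with h | h
        · rw [h, Function.update_self] at hu; rw [h]; linarith
        · rwa [Function.update_of_ne h] at hu
      have e2 := abs_lt.1 (small hlow (hx' l').2 (hxw' l'))
      simp at e1 e2
      rw [abs_lt]; constructor <;> linarith
    subst hb0
    have := (hx' l).1
    rw [Function.update_self] at this
    linarith [(hxw' l).2]
  · obtain ⟨b', hb', x', hx', hxw'⟩ := covered (lo i)
      (Function.update (fun l => lo i l + 1) l (lo i l + w)) (fun l' => by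
        rcases eq_or_ne l' l with h | h
        · rw [h, Function.update_self]; exact ⟨le_rfl, by linarith, by linarith⟩
        · rw [Function.update_of_ne h]; exact ⟨le_rfl, by linarith, le_rfl⟩)
    have hb0 : b = b' := close_eq h1 hb hb' fun l' => by
      have e1 := abs_lt.1 (hw l')
      have hup : x' l' < lo i l' + 1 := by
        have hu := (hx' l').2
        rcases eq_or_ne l' l with h | h
        · rw [h, Function.update_self] at hu; rw [h]; linarith
        · rwa [Function.update_of_ne h] at hu
      have e2 := abs_lt.1 (small (hx' l').1 hup (hxw' l'))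
      simp at e1 e2
      rw [abs_lt]; constructor <;> linarith
    subst hb0
    have := (hx' l).2
    rw [Function.update_self] at this
    linarith [(hxw' l).1]

include h1 h2 in
/-- Any tiling by the piece is one translate of the lattice. -/
theorem rigid (hd : 2 ≤ d) : ∃ c₀, ∀ c, c ∈ C ↔ ∃ z, c = c₀ + toR d z := by
  obtain ⟨c₀, hc₀, -⟩ := h2 univ isOpen_univ univ_nonempty
  have hsucc : ∀ a ∈ C, ∀ i, a + Pi.single i 10 ∈ C := by
    intro a ha i
    obtain ⟨b, hb, y, hy, hyb⟩ := h2
      {y | ∀ l, 1 < y l - (a + Pi.single i 10 : Fin d → ℝ) l ∧ y l - (a + Pi.single i 10 : Fin d → ℝ) l < 10} (by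
        simp only [Set.ofPred_forall, Set.ofPred_and]
        exact isOpen_iInter_of_finite fun l => (isOpen_lt continuous_const
          ((continuous_apply l).sub continuous_const)).inter (isOpen_lt
            ((continuous_apply l).sub continuous_const) continuous_const))
      ⟨fun l => (a + Pi.single i 10 : Fin d → ℝ) l + 2, fun l => by norm_num⟩
    have := h1 a ha _ (pred_mem h1 h2 hd hb i) (y - Pi.single i 10)
      (inner_core fun l => by
        have := hy l
        simp only [Pi.sub_apply, Pi.add_apply] at this ⊢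
        constructor <;> linarith)
      (by rwa [sub_sub_sub_cancel_right])
    rw [this, sub_add_cancel]
    exact hb
  have hall : ∀ z, ∀ a ∈ C, a + toR d z ∈ C := by
    intro z
    induction z using Pi.single_induction with
    | zero => intro a ha; simpa using ha
    | add f g hf hg => intro a ha; rw [map_add, ← add_assoc]; exact hg _ (hf a ha)
    | single i m =>
      induction m using Int.induction_on with
      | zero => intro a ha; simpa using ha
      | succ m ih =>
        intro a ha
        rw [Pi.single_add, map_add, toR_single, ← add_assoc]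
        exact hsucc _ (ih a ha) i
      | pred m ih =>
        intro a ha
        rw [Pi.single_sub, map_sub, toR_single, ← add_sub_assoc]
        exact pred_mem h1 h2 hd (ih a ha) i
  refine ⟨c₀, fun c => ⟨fun hc => ?_, ?_⟩⟩
  · set y : Fin d → ℝ := fun l => c l + 2
    obtain ⟨z, hz, -⟩ := piece_lattice (y - c₀)
    obtain ⟨y', hy', hy'c⟩ := piece_regular
      (U := {x | ∀ l, 1 < x l + c₀ l + toR d z l - c l ∧ x l + c₀ l + toR d z l - c l < 10}) (by
        simp only [Set.ofPred_forall, Set.ofPred_and]
        exact isOpen_iInter_of_finite fun l => (isOpen_lt continuous_const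
          ((((continuous_apply l).add continuous_const).add continuous_const).sub
            continuous_const)).inter (isOpen_lt
          ((((continuous_apply l).add continuous_const).add continuous_const).sub
            continuous_const) continuous_const))
      (fun l => by simp [y]; constructor <;> linarith) hz
    refine ⟨z, (h1 _ (hall z c₀ hc₀) c hc (y' + (c₀ + toR d z)) (by simpa using hy'c)
      (inner_core fun l => ?_)).symm⟩
    have := hy' l
    simp only [Pi.sub_apply, Pi.add_apply]
    constructor <;> linarith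
  · rintro ⟨z, rfl⟩
    exact hall z c₀ hc₀

end Rigid

/-- The measurable tile attached to a finite set. -/
def body (F : Finset (Fin d → ℤ)) : Set (Fin d → ℝ) :=
  {x | ∃ f ∈ F, x - toR d f ∈ piece d}

/-- `A` tiles by `Ω` up to null sets. -/
def AETiles (Ω A : Set (Fin d → ℝ)) : Prop :=
  volume (⋃ a ∈ A, (fun x => x + a) '' Ω)ᶜ = 0 ∧
    ∀ a ∈ A, ∀ b ∈ A, a ≠ b → volume ((fun x => x + a) '' Ω ∩ (fun x => x + b) '' Ω) = 0

lemma measurableSet_piece : MeasurableSet (piece d) := by
  have hd : ∀ (k : Fin d) (s : Fin d → ℝ),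
      MeasurableSet {x : Fin d → ℝ | InDent k (x - s)} := by
    intro k s
    simp only [InDent, Set.ofPred_forall, Set.ofPred_and, Pi.sub_apply]
    exact MeasurableSet.iInter fun l => (measurableSet_le measurable_const
      ((measurable_pi_apply l).sub measurable_const)).inter (measurableSet_lt
      ((measurable_pi_apply l).sub measurable_const) measurable_const)
  simp only [piece, Set.ofPred_or, Set.ofPred_and, Set.ofPred_forall, Set.ofPred_exists]
  refine MeasurableSet.union (MeasurableSet.inter (MeasurableSet.iInter fun l =>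
    (measurableSet_le measurable_const (measurable_pi_apply l)).inter
      (measurableSet_lt (measurable_pi_apply l) measurable_const))
    (MeasurableSet.iInter fun k => ?_)) (MeasurableSet.iUnion fun k => hd k _)
  have := hd k 0
  simp only [sub_zero] at this
  exact this.compl

lemma measurableSet_body (F : Finset (Fin d → ℤ)) : MeasurableSet (body F) := by
  have : body F = ⋃ f ∈ F, (fun x => x - toR d f) ⁻¹' piece d := by ext x; simp [body]
  rw [this]
  exact Finset.measurableSet_biUnion _ fun f _ => (measurable_id.sub_const _) measurableSet_piece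

lemma isBounded_body (F : Finset (Fin d → ℤ)) : Bornology.IsBounded (body F) := by
  have : body F ⊆ ⋃ f ∈ (F : Set (Fin d → ℤ)), Metric.closedBall (toR d f) 20 := by
    rintro x ⟨f, hf, hx⟩
    refine mem_biUnion hf ?_
    rw [Metric.mem_closedBall, dist_pi_le_iff (by norm_num)]
    intro l
    rw [Real.dist_eq, abs_le]
    rcases hx with ⟨hb, -⟩ | ⟨k, hk⟩
    · have := hb l
      simp only [Pi.sub_apply] at this
      constructor <;> linarith
    · have := hk l
      have := lo_nonneg k l
      have := lo_le k l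
      have h0 : 0 ≤ (Pi.single k (10 : ℝ) : Fin d → ℝ) l ∧
          (Pi.single k (10 : ℝ) : Fin d → ℝ) l ≤ 10 := by
        rcases eq_or_ne l k with rfl | h <;> simp [*]
      simp only [Pi.sub_apply] at *
      constructor <;> linarith
  exact ((Bornology.isBounded_biUnion F.finite_toSet).2 fun f _ =>
    Metric.isBounded_closedBall).subset this

lemma volume_body_pos {F : Finset (Fin d → ℤ)} (hF : F.Nonempty) : 0 < volume (body F) := by
  obtain ⟨f, hf⟩ := hF
  have hsub : (fun x => x - toR d f) ⁻¹' core d ⊆ body F := fun x hx => ⟨f, hf, core_subset hx⟩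
  refine lt_of_lt_of_le ?_ (measure_mono hsub)
  refine (isOpen_core.preimage (continuous_id.sub continuous_const)).measure_pos _
    ⟨toR d f + fun _ => 2, ?_⟩
  show toR d f + (fun _ => 2) - toR d f ∈ core d
  rw [add_sub_cancel_left]
  exact inner_core fun _ => by norm_num

lemma tiles_body {F : Finset (Fin d → ℤ)} {A₀ : Set (Fin d → ℤ)}
    (h : ∀ g, ∃! f, f ∈ F ∧ g - f ∈ A₀) : AETiles (body F) (toR d '' A₀) := by
  constructor
  · have : (⋃ a ∈ toR d '' A₀, (fun x => x + a) '' body F) = univ := by
      refine eq_univ_of_forall fun x => ?_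
      obtain ⟨z, hz, -⟩ := piece_lattice x
      obtain ⟨f, ⟨hf, hA⟩, -⟩ := h z
      refine mem_biUnion (mem_image_of_mem _ hA) ⟨x - toR d (z - f), ⟨f, hf, ?_⟩, by simp⟩
      rwa [map_sub, sub_sub, show toR d z - toR d f + toR d f = toR d z by abel]
    rw [this, compl_univ, measure_empty]
  · rintro _ ⟨a, ha, rfl⟩ _ ⟨b, hb, rfl⟩ hne
    have : (fun x => x + toR d a) '' body F ∩ (fun x => x + toR d b) '' body F = ∅ := by
      refine eq_empty_of_forall_notMem ?_
      rintro _ ⟨⟨x, ⟨f, hf, hx⟩, rfl⟩, ⟨y, ⟨g, hg, hy⟩, e⟩⟩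
      simp only at e
      have e1 : a + f = b + g := (piece_lattice (x + toR d a)).unique
        (by rwa [map_add, add_comm (toR d a) (toR d f), add_sub_add_right_eq_sub])
        (by rwa [map_add, ← e, add_comm (toR d b) (toR d g), add_sub_add_right_eq_sub])
      have e2 : f = g := (h (a + f)).unique ⟨hf, by simpa using ha⟩
        ⟨hg, by rw [e1]; simpa using hb⟩
      subst e2
      exact hne (congrArg _ (add_right_cancel e1))
    rw [this, measure_empty]

/-- Tilings of the body come from tilings of the finite set. -/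
theorem discretize {F : Finset (Fin d → ℤ)} (hd : 2 ≤ d) (hF : F.Nonempty)
    {A : Set (Fin d → ℝ)} (hA : AETiles (body F) A) : ∃ (c₀ : Fin d → ℝ) (A₀ : Set (Fin d → ℤ)),
      (∀ g, ∃! f, f ∈ F ∧ g - f ∈ A₀) ∧ ∀ a, a ∈ A ↔ ∃ z ∈ A₀, a = c₀ + toR d z := by
  set C : Set (Fin d → ℝ) := {c | ∃ a ∈ A, ∃ f ∈ F, c = a + toR d f}
  have sub : ∀ a f, f ∈ F → ∀ y, y - (a + toR d f) ∈ piece d → y ∈ (fun x => x + a) '' body F :=
    fun a f hf y hy => ⟨y - a, ⟨f, hf, by rwa [sub_sub]⟩, sub_add_cancel _ _⟩
  have same : ∀ a ∈ A, ∀ b ∈ A, ∀ f ∈ F, ∀ g ∈ F, ∀ y,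
      y - (a + toR d f) ∈ core d → y - (b + toR d g) ∈ core d → a = b ∧ f = g := by
    intro a ha b hb f hf g hg y hya hyb
    have hab : a = b := by
      by_contra hne
      refine ((isOpen_core.preimage (continuous_id.sub continuous_const)).inter
        (isOpen_core.preimage (continuous_id.sub continuous_const))).measure_ne_zero volume
        ⟨y, hya, hyb⟩ (measure_mono_null ?_ (hA.2 a ha b hb hne))
      exact fun z hz => ⟨sub a f hf z (core_subset hz.1), sub b g hg z (core_subset hz.2)⟩
    subst hab
    refine ⟨rfl, (piece_lattice (y - a)).unique ?_ ?_⟩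
    · rw [sub_sub]; exact core_subset hya
    · rw [sub_sub]; exact core_subset hyb
  have h1 : ∀ a ∈ C, ∀ b ∈ C, ∀ y, y - a ∈ core d → y - b ∈ core d → a = b := by
    rintro _ ⟨a, ha, f, hf, rfl⟩ _ ⟨b, hb, g, hg, rfl⟩ y hya hyb
    obtain ⟨rfl, rfl⟩ := same a ha b hb f hf g hg y hya hyb
    rfl
  have h2 : ∀ U : Set (Fin d → ℝ), IsOpen U → U.Nonempty →
      ∃ c ∈ C, ∃ y ∈ U, y - c ∈ core d := by
    intro U hU hne
    obtain ⟨x, hxU, hx⟩ : ∃ x ∈ U, x ∈ ⋃ a ∈ A, (fun x => x + a) '' body F := by
      by_contra hcon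
      simp only [not_exists, not_and] at hcon
      exact hU.measure_ne_zero volume hne (measure_mono_null hcon hA.1)
    obtain ⟨a, ha, w, ⟨f, hf, hw⟩, rfl⟩ := mem_iUnion₂.1 hx
    obtain ⟨y, hyU, hy⟩ := piece_regular
      (U := (fun u => u + (a + toR d f)) ⁻¹' U) (hU.preimage (continuous_id.add continuous_const))
      (x := w - toR d f) (by
        show w - toR d f + (a + toR d f) ∈ U
        rwa [show w - toR d f + (a + toR d f) = w + a by abel]) hw
    exact ⟨_, ⟨a, ha, f, hf, rfl⟩, _, hyU, by rwa [add_sub_cancel_right]⟩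
  obtain ⟨c₀, hC⟩ := rigid h1 h2 hd
  refine ⟨c₀, {z | c₀ + toR d z ∈ A}, fun g => ?_, fun a => ⟨fun ha => ?_, ?_⟩⟩
  · obtain ⟨a, ha, f, hf, e⟩ := (hC (c₀ + toR d g)).2 ⟨g, rfl⟩
    have hmem : c₀ + toR d (g - f) = a := by
      rw [map_sub]; linear_combination (norm := abel) e
    refine ⟨f, ⟨hf, by show c₀ + toR d (g - f) ∈ A; rwa [hmem]⟩, ?_⟩
    rintro f' ⟨hf', ha'⟩
    refine (same _ ha' a ha f' hf' f hf (c₀ + toR d g + fun _ => 2) ?_ ?_).2
    · rw [show c₀ + toR d g + (fun _ => (2 : ℝ)) - (c₀ + toR d (g - f') + toR d f') =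
        fun _ => 2 by rw [map_sub]; abel]
      exact inner_core fun _ => by norm_num
    · rw [e, add_sub_cancel_left]
      exact inner_core fun _ => by norm_num
  · obtain ⟨f, hf⟩ := hF
    obtain ⟨z, hz⟩ := (hC (a + toR d f)).1 ⟨a, ha, f, hf, rfl⟩
    have e : a = c₀ + toR d (z - f) := by
      rw [map_sub]; linear_combination (norm := abel) hz
    exact ⟨z - f, by show c₀ + toR d (z - f) ∈ A; rwa [← e], e⟩
  · rintro ⟨z, hz, rfl⟩
    exact hz

/-- A full set of independent periods gives a multiple of every integer vector as a period. -/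
theorem multiple_period {A₀ : Set (Fin d → ℤ)} {w : Fin d → Fin d → ℤ}
    (hw : LinearIndependent ℝ fun i => toR d (w i))
    (hinv : ∀ i g, g ∈ A₀ ↔ g + w i ∈ A₀) (v : Fin d → ℤ) :
    ∃ P : ℕ, 0 < P ∧ ∀ g, g ∈ A₀ ↔ g + P • v ∈ A₀ := by
  let H : AddSubgroup (Fin d → ℤ) :=
    { carrier := {u | ∀ g, g ∈ A₀ ↔ g + u ∈ A₀}
      add_mem' := fun {u u'} hu hu' g => by rw [hu g, hu' (g + u), add_assoc]
      zero_mem' := fun g => by simp
      neg_mem' := fun {u} hu g => by rw [hu (g + -u), neg_add_cancel_right] }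
  set M : Matrix (Fin d) (Fin d) ℤ := Matrix.of w
  have hdet : M.det ≠ 0 := by
    intro h0
    have h1 : LinearIndependent ℝ (fun i => fun l => (w i l : ℝ)) :=
      Fintype.linearIndependent_iff.2 fun g hg => Fintype.linearIndependent_iff.1 hw g (by
        funext l
        have := congrFun hg l
        simp only [Finset.sum_apply, Pi.smul_apply, smul_eq_mul, Pi.zero_apply, toR_apply] at this ⊢
        simp_rw [mul_left_comm _ (10 : ℝ), ← Finset.mul_sum, this, mul_zero])
    have h2 := (Matrix.linearIndependent_rows_iff_isUnit (A := M.map (Int.cast : ℤ → ℝ))).1 h1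
    rw [Matrix.isUnit_iff_isUnit_det] at h2
    have : (M.map (Int.cast : ℤ → ℝ)).det = ((M.det : ℤ) : ℝ) :=
      ((Int.castRingHom ℝ).map_det M).symm
    rw [this, h0] at h2
    simp at h2
  have hmem : ∀ c : Fin d → ℤ, (∑ i, c i • w i) ∈ H := fun c =>
    sum_mem fun i _ => H.zsmul_mem (show w i ∈ H from hinv i) _
  have e : M.det • v = ∑ i, (Matrix.vecMul v M.adjugate) i • w i := by
    have e1 : Matrix.vecMul (Matrix.vecMul v M.adjugate) M = M.det • v := by
      rw [Matrix.vecMul_vecMul, Matrix.adjugate_mul, Matrix.vecMul_smul, Matrix.vecMul_one]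
    rw [← e1, Matrix.vecMul_eq_sum]
    rfl
  have hH : M.det • v ∈ H := e ▸ hmem _
  refine ⟨M.det.natAbs, Int.natAbs_pos.2 hdet, show M.det.natAbs • v ∈ H from ?_⟩
  rcases Int.natAbs_eq M.det with h | h <;> rw [h] at hH
  · rwa [natCast_zsmul] at hH
  · rw [neg_zsmul, natCast_zsmul] at hH
    simpa using H.neg_mem hH

end Vale.Agent.P043.Euclid
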