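import Vale.Agent.P043.Final
import Vale.Agent.P043.Euclid

/-!
Aperiodic tiles of `Fin d → ℤ` and of `Fin d → ℝ` for every `4 ≤ d`.
-/

open MeasureTheory Set Function

namespace Vale.Agent.P043

theorem exists_good_dim (d : ℕ) (hd : 4 ≤ d) :
    ∃ (F : Finset (Fin d → ℤ)) (v : Fin d → ℤ), Good F v := by
  classical
  obtain ⟨F, v, hF⟩ := exists_good
  obtain ⟨r, rfl⟩ := Nat.exists_eq_add_of_le hd
  let e : ((ℤ × ℤ) × ℤ × ℤ) × (Fin r → ℤ) ≃+ (Fin (4 + r) → ℤ) :=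
    (LinearEquiv.ofFinrankEq (R := ℤ) _ _ (by
      simp [Module.finrank_prod])).toAddEquiv
  exact ⟨_, _, good_map e (good_slice (K := Fin r → ℤ) hF)⟩

/-- Measurable tiles without periodic tilings in every dimension at least four. -/
theorem exists_aperiodic_real (d : ℕ) (hd : 4 ≤ d) : ∃ Ω : Set (Fin d → ℝ),
    MeasurableSet Ω ∧ Bornology.IsBounded Ω ∧ 0 < volume Ω ∧
    (∃ A : Set (Fin d → ℝ), volume (⋃ a ∈ A, (fun x => x + a) '' Ω)ᶜ = 0 ∧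
      ∀ a ∈ A, ∀ b ∈ A, a ≠ b → volume ((fun x => x + a) '' Ω ∩ (fun x => x + b) '' Ω) = 0) ∧
    ∀ A : Set (Fin d → ℝ), volume (⋃ a ∈ A, (fun x => x + a) '' Ω)ᶜ = 0 →
      (∀ a ∈ A, ∀ b ∈ A, a ≠ b → volume ((fun x => x + a) '' Ω ∩ (fun x => x + b) '' Ω) = 0) →
      ¬ ∃ v : Fin d → Fin d → ℝ, LinearIndependent ℝ v ∧ ∀ i, (fun a => a + v i) '' A = A := by
  classical
  obtain ⟨F, u, ⟨A₁, hA₁⟩, hno⟩ := exists_good_dim d hd
  have hF : F.Nonempty := by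
    obtain ⟨f, ⟨hf, -⟩, -⟩ := hA₁ 0
    exact ⟨f, hf⟩
  refine ⟨Euclid.body F, Euclid.measurableSet_body F, Euclid.isBounded_body F,
    Euclid.volume_body_pos hF, ⟨_, Euclid.tiles_body hA₁⟩, fun A hcov hdisj ⟨v, hv, hinv⟩ => ?_⟩
  obtain ⟨c₀, A₀, hA₀, hmem⟩ := Euclid.discretize (le_trans (by norm_num) hd) hF ⟨hcov, hdisj⟩
  obtain ⟨f₀, ⟨-, hz₀⟩, -⟩ := hA₀ 0
  have hw : ∀ i, ∃ w, v i = Euclid.toR d w := by
    intro i
    have h0 : c₀ + Euclid.toR d (0 - f₀) + v i ∈ A := by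
      rw [← hinv i]
      exact ⟨_, (hmem _).2 ⟨_, hz₀, rfl⟩, rfl⟩
    obtain ⟨z, -, hz⟩ := (hmem _).1 h0
    exact ⟨z - (0 - f₀), by rw [map_sub]; linear_combination (norm := abel) hz⟩
  choose w hw using hw
  have hin : ∀ z, c₀ + Euclid.toR d z ∈ A ↔ z ∈ A₀ := fun z => by
    constructor
    · intro hz
      obtain ⟨z', hz', e⟩ := (hmem _).1 hz
      rwa [Euclid.toR_injective (add_left_cancel e)]
    · exact fun hz => (hmem _).2 ⟨z, hz, rfl⟩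
  obtain ⟨P, hP, hper⟩ := Euclid.multiple_period (A₀ := A₀) (w := w)
    (by simpa only [← hw] using hv) (fun i g => by
      rw [← hin g, ← hin (g + w i), map_add, ← hw i, ← add_assoc]
      constructor
      · intro h
        rw [← hinv i]
        exact ⟨_, h, rfl⟩
      · intro h
        rw [← hinv i] at h
        obtain ⟨a, ha, e⟩ := h
        rwa [← add_right_cancel e]) u
  exact hno A₀ hA₀ P hP hper

/-- Both forms at once. -/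
theorem exists_aperiodic_both (d : ℕ) (hd : 4 ≤ d) :
    (∃ F : Finset (Fin d → ℤ), F.Nonempty ∧
      (∃ A : Set (Fin d → ℤ), ∀ g, ∃! f, f ∈ F ∧ g - f ∈ A) ∧
      ∀ A : Set (Fin d → ℤ), (∀ g, ∃! f, f ∈ F ∧ g - f ∈ A) →
        ¬ ∃ H : AddSubgroup (Fin d → ℤ), H.FiniteIndex ∧ ∀ h ∈ H, (fun a => a + h) '' A = A) ∧
    ∃ Ω : Set (Fin d → ℝ), MeasurableSet Ω ∧ Bornology.IsBounded Ω ∧ 0 < volume Ω ∧
      (∃ A : Set (Fin d → ℝ), volume (⋃ a ∈ A, (fun x => x + a) '' Ω)ᶜ = 0 ∧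
        ∀ a ∈ A, ∀ b ∈ A, a ≠ b →
          volume ((fun x => x + a) '' Ω ∩ (fun x => x + b) '' Ω) = 0) ∧
      ∀ A : Set (Fin d → ℝ), volume (⋃ a ∈ A, (fun x => x + a) '' Ω)ᶜ = 0 →
        (∀ a ∈ A, ∀ b ∈ A, a ≠ b →
          volume ((fun x => x + a) '' Ω ∩ (fun x => x + b) '' Ω) = 0) →
        ¬ ∃ v : Fin d → Fin d → ℝ, LinearIndependent ℝ v ∧ ∀ i, (fun a => a + v i) '' A = A :=
  ⟨exists_aperiodic d hd, exists_aperiodic_real d hd⟩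

end Vale.Agent.P043
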