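import Vale.Agent.P043.Gadgets

/-!
Merging finitely many tile equations into one, by piece sizes `B + 2 ^ j`.
-/

open Finset Function

namespace Vale.Agent.P043

lemma sum_two_pow_fin (m : ℕ) : (∑ j : Fin m, 2 ^ (j : ℕ)) + 1 = 2 ^ m := by
  induction m with
  | zero => simp
  | succ m ih => rw [Fin.sum_univ_castSucc, pow_succ]; simp; omega

lemma binary_le : ∀ m : ℕ, ∀ n : Fin m → ℕ, (∑ j, n j * 2 ^ (j : ℕ)) + 1 = 2 ^ m →
    m ≤ ∑ j, n j ∧ ((∑ j, n j = m) → ∀ j, n j = 1) := by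
  intro m
  induction m with
  | zero => intro n _; simp
  | succ m ih =>
    intro n hn
    have hodd : Odd (n 0) := by
      rw [Fin.sum_univ_succ, Fin.val_zero, pow_zero, mul_one] at hn
      have he : Even (∑ i : Fin m, n i.succ * 2 ^ ((i.succ : Fin (m + 1)) : ℕ)) :=
        Finset.even_sum _ fun i _ => by
          simp [Fin.val_succ, pow_succ, Nat.even_mul]
      have h2 : Even (2 ^ (m + 1)) := by simp [pow_succ, Nat.even_mul]
      rw [← hn] at h2
      by_contra hc
      rw [Nat.not_odd_iff_even] at hc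
      exact Nat.not_even_one ((Nat.even_add.1 h2).1 (hc.add he))
    obtain ⟨k, hk⟩ := hodd
    cases m with
    | zero =>
      simp [Fin.sum_univ_one] at hn ⊢
      omega
    | succ m =>
      set n' : Fin (m + 1) → ℕ := fun i => n i.succ + if i = 0 then k else 0
      have h' : (∑ i, n' i * 2 ^ (i : ℕ)) + 1 = 2 ^ (m + 1) := by
        have e : ∑ i : Fin (m + 1), n' i * 2 ^ (i : ℕ) =
            (∑ i : Fin (m + 1), n i.succ * 2 ^ (i : ℕ)) + k := by
          simp only [n', add_mul, sum_add_distrib, ite_mul, zero_mul]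
          simp
        rw [Fin.sum_univ_succ] at hn
        have e2 : ∑ i : Fin (m + 1), n i.succ * 2 ^ ((i.succ : Fin (m + 1 + 1)) : ℕ) =
            2 * ∑ i : Fin (m + 1), n i.succ * 2 ^ (i : ℕ) := by
          rw [mul_sum]; refine sum_congr rfl fun i _ => ?_
          rw [Fin.val_succ, pow_succ]; ring
        rw [e2, Fin.val_zero, pow_zero, mul_one, pow_succ] at hn
        rw [e]; omega
      have hs : ∑ i, n' i + (k + 1) = ∑ j, n j := by
        rw [Fin.sum_univ_succ n]
        simp only [n', sum_add_distrib]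
        simp
        omega
      obtain ⟨h1, h2⟩ := ih n' h'
      refine ⟨by omega, fun he j => ?_⟩
      have hk0 : k = 0 := by omega
      refine Fin.cases (by omega) (fun i => ?_) j
      have := h2 (by omega) i
      simp [n', hk0] at this
      exact this

lemma sizes_rigid {m B : ℕ} (hB : m * 2 ^ m < B) (n : Fin m → ℕ)
    (h : ∑ j, n j * (B + 2 ^ (j : ℕ)) = ∑ j : Fin m, (B + 2 ^ (j : ℕ))) : ∀ j, n j = 1 := by
  rcases Nat.eq_zero_or_pos m with rfl | hm
  · exact fun j => j.elim0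
  set N := ∑ j, n j
  set Q := ∑ j, n j * 2 ^ (j : ℕ)
  have hl : ∑ j, n j * (B + 2 ^ (j : ℕ)) = N * B + Q := by
    simp only [mul_add, sum_add_distrib, N, Q, sum_mul]
  have hr : (∑ j : Fin m, (B + 2 ^ (j : ℕ))) + 1 = m * B + 2 ^ m := by
    rw [sum_add_distrib, add_assoc, sum_two_pow_fin]; simp
  have hQ : Q ≤ N * 2 ^ m := by
    rw [sum_mul]
    exact sum_le_sum fun j _ => Nat.mul_le_mul_left _ (Nat.pow_le_pow_right (by norm_num) j.isLt.le)
  rw [hl] at h
  have hN : N = m := by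
    rcases lt_trichotomy N m with h' | h' | h'
    · have h1 : (N + 1) * B ≤ m * B := Nat.mul_le_mul_right _ h'
      have h2 : N * 2 ^ m ≤ m * 2 ^ m := Nat.mul_le_mul_right _ h'.le
      rw [add_mul, one_mul] at h1
      have : 1 ≤ 2 ^ m := Nat.one_le_two_pow
      omega
    · exact h'
    · have h1 : (m + 1) * B ≤ N * B := Nat.mul_le_mul_right _ h'
      rw [add_mul, one_mul] at h1
      have : 2 ^ m ≤ m * 2 ^ m := Nat.le_mul_of_pos_left _ hm
      omega
  rw [hN] at h
  exact (binary_le m n (show Q + 1 = 2 ^ m by omega)).2 hN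

variable {G : Type*} [AddCommGroup G] [DecidableEq G]

/-- The total size of the pieces. -/
def pieceTotal (m B : ℕ) : ℕ := ∑ j : Fin m, (B + 2 ^ (j : ℕ))

variable {m B : ℕ} [NeZero (pieceTotal m B)]

/-- A labelling of `ZMod (pieceTotal m B)` by pieces. -/
noncomputable def pieceEquiv (m B : ℕ) [NeZero (pieceTotal m B)] :
    (Σ j : Fin m, Fin (B + 2 ^ (j : ℕ))) ≃ ZMod (pieceTotal m B) :=
  Fintype.equivOfCardEq (by rw [Fintype.card_sigma, ZMod.card]; simp [pieceTotal])

/-- The merged tile. -/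
noncomputable def mergeTile (Fs : Fin m → Finset G) :
    Finset (G × ZMod (pieceTotal m B)) :=
  (univ : Finset (Σ j : Fin m, Fin (B + 2 ^ (j : ℕ)))).biUnion fun i =>
    (Fs i.1).image fun f => (f, pieceEquiv m B i)

lemma mem_mergeTile {Fs : Fin m → Finset G} {p : G × ZMod (pieceTotal m B)} :
    p ∈ mergeTile Fs ↔ p.1 ∈ Fs ((pieceEquiv m B).symm p.2).1 := by
  simp only [mergeTile, mem_biUnion, mem_univ, true_and, mem_image]
  constructor
  · rintro ⟨i, f, hf, rfl⟩
    simpa using hf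
  · intro h
    exact ⟨(pieceEquiv m B).symm p.2, p.1, h, by simp⟩

lemma merge_complete {Fs : Fin m → Finset G} {A : Set G} (h : ∀ j, Tiles (Fs j) A) :
    Tiles (mergeTile (B := B) Fs) {p | p.1 ∈ A ∧ p.2 = 0} := by
  rintro ⟨g, z⟩
  obtain ⟨f, ⟨hf, hA⟩, hu⟩ := h ((pieceEquiv m B).symm z).1 g
  refine ⟨(f, z), ⟨mem_mergeTile.2 hf, hA, sub_self z⟩, ?_⟩
  rintro ⟨f', z'⟩ ⟨hf', hA', hz⟩
  have e : z' = z := (sub_eq_zero.1 hz).symm
  subst e
  rw [hu f' ⟨mem_mergeTile.1 hf', hA'⟩]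

lemma merge_sound (hB : m * 2 ^ m < B) {Fs : Fin m → Finset G}
    {A : Set (G × ZMod (pieceTotal m B))} (h : Tiles (mergeTile Fs) A) (j : Fin m) :
    Tiles (Fs j) (Prod.fst '' A) := by
  classical
  intro g
  set P : Fin m → Finset (G × ZMod (pieceTotal m B)) := fun j =>
    ((Fs j) ×ˢ univ).filter fun p => (g - p.1, p.2) ∈ A with hP
  have key : Bijective fun i : (Σ j : Fin m, {p // p ∈ P j} × Fin (B + 2 ^ (j : ℕ))) =>
      (i.2.1 : G × ZMod (pieceTotal m B)).2 + pieceEquiv m B ⟨i.1, i.2.2⟩ := by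
    constructor
    · rintro ⟨j, ⟨p, hp⟩, e⟩ ⟨j', ⟨p', hp'⟩, e'⟩ heq
      simp only [hP, mem_filter, mem_product, mem_univ, and_true] at hp hp'
      simp only at heq
      have := (h (g, p.2 + pieceEquiv m B ⟨j, e⟩)).unique
        (y₁ := (p.1, pieceEquiv m B ⟨j, e⟩)) (y₂ := (p'.1, pieceEquiv m B ⟨j', e'⟩))
        ⟨mem_mergeTile.2 (by simpa using hp.1), by simpa using hp.2⟩
        ⟨mem_mergeTile.2 (by simpa using hp'.1), by simpa [heq] using hp'.2⟩
      simp only [Prod.mk.injEq, EmbeddingLike.apply_eq_iff_eq] at this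
      obtain ⟨h1, h2⟩ := this
      obtain ⟨rfl, h3⟩ := Sigma.mk.inj_iff.1 h2
      obtain rfl := eq_of_heq h3
      obtain rfl : p = p' := Prod.ext h1 (add_right_cancel heq)
      rfl
    · intro z
      obtain ⟨⟨f, e⟩, ⟨hf, hA⟩, -⟩ := h (g, z)
      refine ⟨⟨((pieceEquiv m B).symm e).1, ⟨(f, z - e), ?_⟩, ((pieceEquiv m B).symm e).2⟩,
        by simp⟩
      simp only [hP, mem_filter, mem_product, mem_univ, and_true]
      exact ⟨mem_mergeTile.1 hf, hA⟩
  have hc := Fintype.card_congr (Equiv.ofBijective _ key)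
  simp only [Fintype.card_sigma, Fintype.card_prod, Fintype.card_coe, Fintype.card_fin,
    ZMod.card] at hc
  obtain ⟨p, hp⟩ := card_eq_one.1 (sizes_rigid hB _ hc j)
  have hmem : p ∈ P j := by rw [hp]; exact mem_singleton_self _
  simp only [hP, mem_filter, mem_product, mem_univ, and_true] at hmem
  refine ⟨p.1, ⟨hmem.1, ⟨_, hmem.2, rfl⟩⟩, ?_⟩
  rintro f ⟨hf, ⟨a, t⟩, hA, rfl⟩
  have : (f, t) ∈ P j := by
    simp only [hP, mem_filter, mem_product, mem_univ, and_true]
    exact ⟨hf, hA⟩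
  rw [hp, mem_singleton] at this
  exact congrArg Prod.fst this

end Vale.Agent.P043
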