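import Vale.Agent.P043.Gadgets

/-!
Interlocking squares and the transfer of aperiodic tiles from `ℤ² × ZMod N₁ × ZMod N₂` to `ℤ⁴`.
-/

open Finset Function

namespace Vale.Agent.P043

/-- The square of side `2 m + 1` with dents at `k` and `m` and the matching bumps. -/
noncomputable def shape (m k : ℕ) : Finset (ℤ × ℤ) :=
  ((Icc (0 : ℤ) (2 * m + 1)) ×ˢ (Icc (0 : ℤ) (2 * m + 1))).filter fun o =>
    (o.1 ≤ 2 * m ∧ o.2 ≤ 2 * m ∧ ¬(o.2 = 0 ∧ (o.1 = k ∨ o.1 = m)) ∧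
      ¬(o.1 = 0 ∧ (o.2 = k ∨ o.2 = m))) ∨
    (o.2 = 2 * m + 1 ∧ (o.1 = k ∨ o.1 = m)) ∨ (o.1 = 2 * m + 1 ∧ (o.2 = k ∨ o.2 = m))

lemma mem_shape {m k : ℕ} {o : ℤ × ℤ} : o ∈ shape m k ↔
    (0 ≤ o.1 ∧ o.1 ≤ 2 * m + 1 ∧ 0 ≤ o.2 ∧ o.2 ≤ 2 * m + 1) ∧
    ((o.1 ≤ 2 * m ∧ o.2 ≤ 2 * m ∧ ¬(o.2 = 0 ∧ (o.1 = k ∨ o.1 = m)) ∧
      ¬(o.1 = 0 ∧ (o.2 = k ∨ o.2 = m))) ∨
    (o.2 = 2 * m + 1 ∧ (o.1 = k ∨ o.1 = m)) ∨
      (o.1 = 2 * m + 1 ∧ (o.2 = k ∨ o.2 = m))) := by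
  simp only [shape, mem_filter, mem_product, mem_Icc, and_assoc]

lemma shape_swap {m k : ℕ} {o : ℤ × ℤ} : o.swap ∈ shape m k ↔ o ∈ shape m k := by
  simp only [mem_shape, Prod.fst_swap, Prod.snd_swap]
  omega

lemma dent_bump {m k : ℕ} (hk2 : 2 ≤ k) (hkm : k + 2 ≤ m) {o : ℤ × ℤ} (ho : o ∈ shape m k)
    (hl : o - (1, 0) ∉ shape m k) (hr : o + (1, 0) ∉ shape m k) (hu : o + (0, 1) ∉ shape m k) :
    o.2 = 2 * m + 1 ∧ (o.1 = k ∨ o.1 = m) := by
  obtain ⟨x, y⟩ := o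
  simp only [mem_shape, Prod.mk_sub_mk, Prod.mk_add_mk] at ho hl hr hu ⊢
  omega

lemma shape_cover {m k : ℕ} (hk2 : 2 ≤ k) (hkm : k + 2 ≤ m) (u : ℤ × ℤ) :
    ∃ z : ℤ × ℤ, u - ((2 * (m : ℤ) + 1) * z.1, (2 * (m : ℤ) + 1) * z.2) ∈ shape m k := by
  set K := 2 * (m : ℤ) + 1 with hK
  have h1 := Int.emod_add_mul_ediv u.1 K
  have h2 := Int.emod_add_mul_ediv u.2 K
  have b1 := Int.emod_nonneg u.1 (show K ≠ 0 by omega)
  have b2 := Int.emod_nonneg u.2 (show K ≠ 0 by omega)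
  have c1 := Int.emod_lt_of_pos u.1 (show 0 < K by omega)
  have c2 := Int.emod_lt_of_pos u.2 (show 0 < K by omega)
  set x := u.1 / K
  set y := u.2 / K
  set X := u.1 % K
  set Y := u.2 % K
  by_cases hA : Y = 0 ∧ (X = k ∨ X = m)
  · refine ⟨(x, y - 1), mem_shape.2 ?_⟩
    simp only [Prod.fst_sub, Prod.snd_sub, mul_sub, mul_one]
    omega
  · by_cases hB : X = 0 ∧ (Y = k ∨ Y = m)
    · refine ⟨(x - 1, y), mem_shape.2 ?_⟩
      simp only [Prod.fst_sub, Prod.snd_sub, mul_sub, mul_one]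
      omega
    · refine ⟨(x, y), mem_shape.2 ?_⟩
      simp only [Prod.fst_sub, Prod.snd_sub]
      omega

lemma shape_unique {m k : ℕ} (hk2 : 2 ≤ k) (hkm : k + 2 ≤ m) {r r' z : ℤ × ℤ}
    (hr : r ∈ shape m k) (hr' : r' ∈ shape m k)
    (h1 : r.1 - r'.1 = (2 * (m : ℤ) + 1) * z.1) (h2 : r.2 - r'.2 = (2 * (m : ℤ) + 1) * z.2) :
    r = r' := by
  obtain ⟨x, y⟩ := r
  obtain ⟨x', y'⟩ := r'
  simp only [mem_shape] at hr hr' h1 h2
  have bd : ∀ w : ℤ, -(2 * (m : ℤ) + 1) ≤ (2 * (m : ℤ) + 1) * w →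
      (2 * (m : ℤ) + 1) * w ≤ 2 * (m : ℤ) + 1 → w = -1 ∨ w = 0 ∨ w = 1 := fun w hl hh => by
    have : -1 ≤ w := by
      refine le_of_mul_le_mul_left ?_ (show (0 : ℤ) < 2 * (m : ℤ) + 1 by omega); omega
    have : w ≤ 1 := by
      refine le_of_mul_le_mul_left ?_ (show (0 : ℤ) < 2 * (m : ℤ) + 1 by omega); omega
    omega
  obtain ⟨z1, z2⟩ := z
  rcases bd z1 (by simp only at h1; omega) (by simp only at h1; omega) with rfl | rfl | rfl <;>
    rcases bd z2 (by simp only at h2; omega) (by simp only at h2; omega) with rfl | rfl | rfl <;>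
    simp only [Prod.mk.injEq] <;> omega

variable {m n : ℕ} {code : Fin n → ℕ} (hcode : ∀ i, 2 ≤ code i ∧ code i + 2 ≤ m)
  (hinj : Injective code) {S : Set ((ℤ × ℤ) × Fin n)}

include hcode hinj

/-- The lower neighbour of a tile is a tile of the same kind. -/
lemma down_neighbour (hS : ∀ u, ∃! s, s ∈ S ∧ u - s.1 ∈ shape m (code s.2)) {c : ℤ × ℤ}
    {i : Fin n} (hc : (c, i) ∈ S) : (c - (0, 2 * (m : ℤ) + 1), i) ∈ S := by
  obtain ⟨hk2, hkm⟩ := hcode i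
  set h : ℤ × ℤ := c + ((m : ℤ), 0) with hh
  obtain ⟨⟨c', i'⟩, ⟨hmem, ho⟩, -⟩ := hS h
  obtain ⟨hk2', hkm'⟩ := hcode i'
  have hne : (c', i') ≠ (c, i) := by
    intro e
    simp only [Prod.mk.injEq] at e
    rw [e.1, e.2, hh, add_sub_cancel_left, mem_shape] at ho
    omega
  have excl : ∀ u, u - c ∈ shape m (code i) → u - c' ∉ shape m (code i') := fun u h1 h2 =>
    hne ((hS u).unique ⟨hmem, h2⟩ ⟨hc, h1⟩)
  obtain ⟨hy, hx⟩ := dent_bump hk2' hkm' ho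
    (fun h' => excl (h - (1, 0)) (by rw [hh, mem_shape]; simp; omega)
      (by rwa [sub_right_comm] at h'))
    (fun h' => excl (h + (1, 0)) (by rw [hh, mem_shape]; simp; omega)
      (by rwa [sub_add_eq_add_sub] at h'))
    (fun h' => excl (h + (0, 1)) (by rw [hh, mem_shape]; simp; omega)
      (by rwa [sub_add_eq_add_sub] at h'))
  simp only [hh, Prod.fst_sub, Prod.snd_sub, Prod.fst_add, Prod.snd_add] at hx hy
  rcases hx with hx | hx
  · exfalso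
    refine excl (c' + ((m : ℤ), 2 * (m : ℤ) + 1)) ?_ ?_
    · rw [mem_shape]; simp; omega
    · rw [mem_shape]; simp; omega
  · have e : c' = c - (0, 2 * (m : ℤ) + 1) := Prod.ext (by simp; omega) (by simp; omega)
    have hk : code i' = code i := by
      by_contra hne'
      refine excl (c' + ((code i' : ℤ), 2 * (m : ℤ) + 1)) ?_ ?_
      · rw [mem_shape]; simp [e]; omega
      · rw [mem_shape]; simp; omega
    rw [← e, ← hinj hk]
    exact hmem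

lemma up_neighbour (hS : ∀ u, ∃! s, s ∈ S ∧ u - s.1 ∈ shape m (code s.2)) {c : ℤ × ℤ}
    {i : Fin n} (hc : (c, i) ∈ S) : (c + (0, 2 * (m : ℤ) + 1), i) ∈ S := by
  obtain ⟨⟨c', i'⟩, ⟨hmem, ho⟩, -⟩ := hS (c + (1, 2 * (m : ℤ) + 1 + 1))
  have := (hS (c + (1, 1))).unique ⟨down_neighbour hcode hinj hS hmem, by
    convert ho using 1
    ext <;> simp <;> omega⟩ ⟨hc, by
      have := hcode i
      rw [add_sub_cancel_left, mem_shape]; omega⟩
  simp only [Prod.mk.injEq] at this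
  rw [← this.1, sub_add_cancel, ← this.2]
  exact hmem

lemma vertical_line (hS : ∀ u, ∃! s, s ∈ S ∧ u - s.1 ∈ shape m (code s.2)) {c : ℤ × ℤ}
    {i : Fin n} (hc : (c, i) ∈ S) (z : ℤ) : (c + (0, (2 * (m : ℤ) + 1) * z), i) ∈ S := by
  induction z using Int.induction_on with
  | zero => rwa [mul_zero, ← Prod.zero_eq_mk, add_zero]
  | succ z ih =>
    have := up_neighbour hcode hinj hS ih
    convert this using 2
    ext <;> simp
    ring
  | pred z ih =>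
    have := down_neighbour hcode hinj hS ih
    rwa [add_sub_assoc, Prod.mk_sub_mk, sub_zero, ← mul_sub_one] at this

/-- Any tiling by the squares is one lattice of one kind. -/
theorem rigid (hS : ∀ u, ∃! s, s ∈ S ∧ u - s.1 ∈ shape m (code s.2)) :
    ∃ c i, ∀ s, s ∈ S ↔ s.2 = i ∧ ∃ z : ℤ × ℤ,
      s.1 = c + ((2 * (m : ℤ) + 1) * z.1, (2 * (m : ℤ) + 1) * z.2) := by
  obtain ⟨⟨c, i⟩, ⟨hc, -⟩, -⟩ := hS 0
  set S' : Set ((ℤ × ℤ) × Fin n) := {s | (s.1.swap, s.2) ∈ S}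
  have hS' : ∀ u, ∃! s, s ∈ S' ∧ u - s.1 ∈ shape m (code s.2) := by
    intro u
    obtain ⟨⟨d, k⟩, ⟨hd, hu⟩, huniq⟩ := hS u.swap
    refine ⟨(d.swap, k), ⟨by simpa [S'] using hd, ?_⟩, ?_⟩
    · rw [← shape_swap]
      rwa [show (u - d.swap).swap = u.swap - d from rfl]
    · rintro ⟨d', k'⟩ ⟨hd', hu'⟩
      have := huniq (d'.swap, k') ⟨hd', by
        rw [← shape_swap] at hu'
        rwa [show (u - d').swap = u.swap - d'.swap from rfl] at hu'⟩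
      simp only [Prod.mk.injEq] at this
      rw [← this.1, Prod.swap_swap, this.2]
  have hall : ∀ z : ℤ × ℤ,
      (c + ((2 * (m : ℤ) + 1) * z.1, (2 * (m : ℤ) + 1) * z.2), i) ∈ S := by
    intro z
    have h1 : ((c + (0, (2 * (m : ℤ) + 1) * z.2)).swap, i) ∈ S' := by
      simpa [S'] using vertical_line hcode hinj hS hc z.2
    have h2 := vertical_line hcode hinj hS' h1 z.1
    simp only [S', Set.mem_setOf_eq] at h2
    convert h2 using 2
    ext <;> simp <;> ring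
  refine ⟨c, i, fun s => ⟨fun hs => ?_, fun ⟨h1, z, hz⟩ => ?_⟩⟩
  · obtain ⟨s₁, s₂⟩ := s
    have hmem : ((1 : ℤ), (1 : ℤ)) ∈ shape m (code s₂) := by
      have := hcode s₂
      rw [mem_shape]; omega
    obtain ⟨z, hz⟩ := shape_cover (hcode i).1 (hcode i).2 (s₁ + (1, 1) - c)
    have := (hS (s₁ + (1, 1))).unique ⟨hs, by rwa [add_sub_cancel_left]⟩
      ⟨hall z, by rwa [← sub_sub]⟩
    simp only [Prod.mk.injEq] at this
    exact ⟨this.2, z, this.1⟩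
  · have := hall z
    rwa [← hz, ← h1] at this

omit hcode hinj

section Transfer

variable {N₁ N₂ : ℕ} [NeZero N₁] [NeZero N₂]

/-- The chosen representative. -/
def sect (g : (ℤ × ℤ) × ZMod N₁ × ZMod N₂) : (ℤ × ℤ) × ℤ × ℤ :=
  (g.1, (g.2.1.val : ℤ), (g.2.2.val : ℤ))

/-- The reduction map. -/
def reduce (N₁ N₂ : ℕ) : (ℤ × ℤ) × ℤ × ℤ →+ (ℤ × ℤ) × ZMod N₁ × ZMod N₂ where
  toFun P := (P.1, (P.2.1 : ZMod N₁), (P.2.2 : ZMod N₂))
  map_zero' := by simp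
  map_add' P Q := by simp

/-- The kernel, parametrised. -/
def kemb (N₁ N₂ : ℕ) : ℤ × ℤ →+ (ℤ × ℤ) × ℤ × ℤ where
  toFun u := (0, (N₁ : ℤ) * u.1, (N₂ : ℤ) * u.2)
  map_zero' := by simp
  map_add' u v := by simp [mul_add]

omit [NeZero N₁] [NeZero N₂] in
lemma reduce_kemb (u : ℤ × ℤ) : reduce N₁ N₂ (kemb N₁ N₂ u) = 0 := by
  simp [reduce, kemb]

lemma reduce_sect (g : (ℤ × ℤ) × ZMod N₁ × ZMod N₂) : reduce N₁ N₂ (sect g) = g := by
  simp [reduce, sect]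

lemma exists_kemb {P Q : (ℤ × ℤ) × ℤ × ℤ} (h : reduce N₁ N₂ P = reduce N₁ N₂ Q) :
    ∃ u, P = Q + kemb N₁ N₂ u := by
  simp only [reduce, AddMonoidHom.coe_mk, ZeroHom.coe_mk, Prod.mk.injEq] at h
  obtain ⟨h0, h1, h2⟩ := h
  obtain ⟨u, hu⟩ := (ZMod.intCast_eq_intCast_iff_dvd_sub _ _ _).1 h1.symm
  obtain ⟨v, hv⟩ := (ZMod.intCast_eq_intCast_iff_dvd_sub _ _ _).1 h2.symm
  refine ⟨(u, v), Prod.ext (by simp [kemb, h0]) (Prod.ext ?_ ?_)⟩ <;> simp [kemb] <;> omega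

lemma kemb_injective : Injective (kemb N₁ N₂) := by
  intro u v h
  simp only [kemb, AddMonoidHom.coe_mk, ZeroHom.coe_mk, Prod.mk.injEq, true_and] at h
  have a : (N₁ : ℤ) ≠ 0 := by exact_mod_cast NeZero.ne N₁
  have b : (N₂ : ℤ) ≠ 0 := by exact_mod_cast NeZero.ne N₂
  exact Prod.ext (mul_left_cancel₀ a h.1) (mul_left_cancel₀ b h.2)

variable (e : Fin n → (ℤ × ℤ) × ZMod N₁ × ZMod N₂)

/-- The lifted tile. -/
noncomputable def liftTile : Finset ((ℤ × ℤ) × ℤ × ℤ) :=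
  univ.biUnion fun i : Fin n =>
    (shape (n + 4) (2 + (i : ℕ))).image fun r => sect (e i) + kemb N₁ N₂ r

lemma code_ok (i : Fin n) : 2 ≤ 2 + (i : ℕ) ∧ 2 + (i : ℕ) + 2 ≤ n + 4 := by omega

lemma mem_liftTile {P : (ℤ × ℤ) × ℤ × ℤ} : P ∈ liftTile e ↔
    ∃ i : Fin n, ∃ r ∈ shape (n + 4) (2 + (i : ℕ)), P = sect (e i) + kemb N₁ N₂ r := by
  simp only [liftTile, mem_biUnion, mem_univ, true_and, mem_image, eq_comm]

variable {e} (he : Injective e)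

include he

theorem lift_sound {A : Set ((ℤ × ℤ) × ℤ × ℤ)} (h : Tiles (liftTile e) A) :
    Tiles (univ.image e) (reduce N₁ N₂ '' A) := by
  intro g
  set S : Set ((ℤ × ℤ) × Fin n) := {s | sect g + kemb N₁ N₂ s.1 - sect (e s.2) ∈ A} with hSdef
  have hS : ∀ u, ∃! s, s ∈ S ∧ u - s.1 ∈ shape (n + 4) (2 + (s.2 : ℕ)) := by
    intro u
    obtain ⟨t, ⟨ht, hA⟩, huniq⟩ := h (sect g + kemb N₁ N₂ u)
    obtain ⟨i, r, hr, rfl⟩ := (mem_liftTile e).1 ht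
    refine ⟨(u - r, i), ⟨?_, by rwa [sub_sub_cancel]⟩, ?_⟩
    · show sect g + kemb N₁ N₂ (u - r) - sect (e i) ∈ A
      convert hA using 1
      rw [map_sub]; abel
    · rintro ⟨c, k⟩ ⟨hc, hk⟩
      have hh := huniq (sect (e k) + kemb N₁ N₂ (u - c)) ⟨(mem_liftTile e).2 ⟨k, _, hk, rfl⟩, by
        convert (show sect g + kemb N₁ N₂ c - sect (e k) ∈ A from hc) using 1
        rw [map_sub]; abel⟩
      have hki : k = i := he (by
        have := congrArg (reduce N₁ N₂) hh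
        simpa [reduce_sect, reduce_kemb] using this)
      subst hki
      have := kemb_injective (add_left_cancel hh)
      rw [← this, sub_sub_cancel]
  obtain ⟨c, i, hrig⟩ := rigid code_ok (fun a b hab => Fin.ext (by omega)) hS
  refine ⟨e i, ⟨mem_image_of_mem _ (mem_univ _), ?_⟩, ?_⟩
  · exact ⟨sect g + kemb N₁ N₂ c - sect (e i),
      (hrig (c, i)).2 ⟨rfl, 0, by simp⟩, by simp [reduce_sect, reduce_kemb]⟩
  · rintro f ⟨hf, a, ha, hfa⟩
    obtain ⟨k, -, rfl⟩ := mem_image.1 hf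
    obtain ⟨u, hu⟩ := exists_kemb (N₁ := N₁) (N₂ := N₂) (P := a + sect (e k)) (Q := sect g)
      (by simp [reduce_sect, hfa])
    have : ((u, k) : (ℤ × ℤ) × Fin n) ∈ S := by
      show sect g + kemb N₁ N₂ u - sect (e k) ∈ A
      rw [← hu, add_sub_cancel_right]; exact ha
    obtain rfl : k = i := ((hrig _).1 this).1
    rfl

theorem lift_complete {A₀ : Set ((ℤ × ℤ) × ZMod N₁ × ZMod N₂)}
    (h : Tiles (univ.image e) A₀) :
    Tiles (liftTile e) {P | reduce N₁ N₂ P ∈ A₀ ∧ ∃ z : ℤ × ℤ,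
      P = sect (reduce N₁ N₂ P) + kemb N₁ N₂
        ((2 * ((n + 4 : ℕ) : ℤ) + 1) * z.1, (2 * ((n + 4 : ℕ) : ℤ) + 1) * z.2)} := by
  intro P
  set K := 2 * ((n + 4 : ℕ) : ℤ) + 1 with hK
  obtain ⟨f, ⟨hf, hfA⟩, huniq⟩ := h (reduce N₁ N₂ P)
  obtain ⟨i, -, rfl⟩ := mem_image.1 hf
  set g₀ := reduce N₁ N₂ P - e i with hg₀
  obtain ⟨u, hu⟩ := exists_kemb (N₁ := N₁) (N₂ := N₂) (P := P) (Q := sect g₀ + sect (e i))
    (by simp [reduce_sect, hg₀])
  obtain ⟨z, hz⟩ := shape_cover (code_ok i).1 (code_ok i).2 u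
  rw [← hK] at hz
  set r := u - (K * z.1, K * z.2) with hr
  have hPr : P - (sect (e i) + kemb N₁ N₂ r) = sect g₀ + kemb N₁ N₂ (K * z.1, K * z.2) := by
    rw [hu, hr, map_sub]; abel
  refine ⟨sect (e i) + kemb N₁ N₂ r, ⟨(mem_liftTile e).2 ⟨i, r, hz, rfl⟩, ?_⟩, ?_⟩
  · rw [hPr]
    refine ⟨by simpa [reduce_sect, reduce_kemb] using hfA, z, ?_⟩
    simp [reduce_sect, reduce_kemb]
  · rintro t ⟨ht, hA, z', hz'⟩
    obtain ⟨k, r', hr', rfl⟩ := (mem_liftTile e).1 ht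
    have hk : e k = e i := huniq (e k) ⟨mem_image_of_mem _ (mem_univ _), by
      simpa [reduce_sect, reduce_kemb] using hA⟩
    obtain rfl := he hk
    have hred : reduce N₁ N₂ (P - (sect (e k) + kemb N₁ N₂ r')) = g₀ := by
      simp [reduce_sect, reduce_kemb, hg₀]
    rw [hred] at hz'
    have h4 : r + (K * z.1, K * z.2) = r' + (K * z'.1, K * z'.2) := by
      refine kemb_injective (N₁ := N₁) (N₂ := N₂) ?_
      rw [map_add, map_add]
      have e1 : P = sect g₀ + kemb N₁ N₂ (K * z.1, K * z.2) + (sect (e k) + kemb N₁ N₂ r) := by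
        rw [← hPr]; abel
      have e2 : P = sect g₀ + kemb N₁ N₂ (K * z'.1, K * z'.2) +
          (sect (e k) + kemb N₁ N₂ r') := by
        rw [← hz']; abel
      have := e1.symm.trans e2
      linear_combination (norm := abel) this
    have := shape_unique (code_ok k).1 (code_ok k).2 (z := (z'.1 - z.1, z'.2 - z.2)) hz hr'
      (by have := congrArg Prod.fst h4; simp only [Prod.fst_add] at this; rw [← hK]
          linear_combination this)
      (by have := congrArg Prod.snd h4; simp only [Prod.snd_add] at this; rw [← hK]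
          linear_combination this)
    rw [this]

end Transfer

end Vale.Agent.P043
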