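import Vale.Agent.P043.System
import Vale.Agent.P043.Combine
import Vale.Agent.P043.Lift

/-!
An aperiodic tile of `Fin d → ℤ` for every `4 ≤ d`.
-/

open Finset Function

namespace Vale.Agent.P043

/-- `F` tiles, and none of its tilings is invariant under a positive multiple of `v`. -/
def Good {G : Type*} [AddCommGroup G] (F : Finset G) (v : G) : Prop :=
  (∃ A, Tiles F A) ∧ ∀ A, Tiles F A → ∀ P : ℕ, 0 < P → ¬ ∀ g, g ∈ A ↔ g + P • v ∈ A

section Transfer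

variable {G K : Type*} [AddCommGroup G] [AddCommGroup K]

lemma image_invariant {f : G →+ K} {A : Set G} {w : G} (h : ∀ g, g ∈ A ↔ g + w ∈ A) (y : K) :
    y ∈ f '' A ↔ y + f w ∈ f '' A := by
  constructor
  · rintro ⟨g, hg, rfl⟩
    exact ⟨g + w, (h g).1 hg, map_add f g w⟩
  · rintro ⟨g, hg, e⟩
    refine ⟨g - w, (h _).2 (by rwa [sub_add_cancel]), ?_⟩
    rw [map_sub, e, add_sub_cancel_right]

lemma tiles_map (φ : G ≃+ K) {F : Finset G} {A : Set G} (h : Tiles F A) :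
    Tiles (F.map φ.toEquiv.toEmbedding) (φ '' A) := by
  intro y
  obtain ⟨f, ⟨hf, hA⟩, hu⟩ := h (φ.symm y)
  refine ⟨φ f, ⟨mem_map_of_mem _ hf, φ.symm y - f, hA, by simp⟩, ?_⟩
  rintro k ⟨hk, a, ha, e⟩
  obtain ⟨f', hf', rfl⟩ := mem_map.1 hk
  have : φ.symm y - f' = a := φ.injective (by simp [e])
  exact congrArg φ (hu f' ⟨hf', this ▸ ha⟩)

lemma good_map (φ : G ≃+ K) {F : Finset G} {v : G} (h : Good F v) :
    Good (F.map φ.toEquiv.toEmbedding) (φ v) := by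
  obtain ⟨⟨A, hA⟩, hP⟩ := h
  refine ⟨⟨_, tiles_map φ hA⟩, fun A' hA' P hP0 hinv => ?_⟩
  have h' := tiles_map φ.symm hA'
  rw [map_map, show φ.toEquiv.toEmbedding.trans φ.symm.toEquiv.toEmbedding =
    Embedding.refl G from Embedding.ext fun g => φ.symm_apply_apply g, map_refl] at h'
  refine hP _ h' P hP0 fun g => ?_
  have := image_invariant (f := φ.symm.toAddMonoidHom) hinv g
  simpa using this

lemma good_slice [DecidableEq K] [DecidableEq G] {F : Finset G} {v : G} (h : Good F v) :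
    Good (F.image fun f => ((f, 0) : G × K)) ((v, 0) : G × K) := by
  obtain ⟨⟨A, hA⟩, hP⟩ := h
  refine ⟨⟨{g | g.1 ∈ A}, ?_⟩, fun A' hA' P hP0 hinv => ?_⟩
  · rintro ⟨g, k⟩
    obtain ⟨f, ⟨hf, hfA⟩, hu⟩ := hA g
    refine ⟨(f, 0), ⟨mem_image_of_mem _ hf, hfA⟩, ?_⟩
    rintro p ⟨hp, hpA⟩
    obtain ⟨f', hf', rfl⟩ := mem_image.1 hp
    rw [hu f' ⟨hf', hpA⟩]
  · refine hP {g | ((g, 0) : G × K) ∈ A'} ?_ P hP0 fun g => by simpa using hinv (g, 0)
    intro g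
    obtain ⟨p, ⟨hp, hpA⟩, hu⟩ := hA' (g, 0)
    obtain ⟨f, hf, rfl⟩ := mem_image.1 hp
    refine ⟨f, ⟨hf, by simpa using hpA⟩, fun f' hf' => ?_⟩
    exact (Prod.mk.inj (hu (f', 0) ⟨mem_image_of_mem _ hf'.1, by simpa using hf'.2⟩)).1

lemma good_merge [DecidableEq G] {m B : ℕ} [NeZero (pieceTotal m B)] (hB : m * 2 ^ m < B)
    {Fs : Fin m → Finset G} {v : G} (hex : ∃ A, ∀ j, Tiles (Fs j) A)
    (hno : ∀ A : Set G, (∀ j, Tiles (Fs j) A) → ∀ P : ℕ, 0 < P →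
      ¬ ∀ g, g ∈ A ↔ g + P • v ∈ A) :
    Good (mergeTile (B := B) Fs) ((v, 0) : G × ZMod (pieceTotal m B)) := by
  obtain ⟨A, hA⟩ := hex
  refine ⟨⟨_, merge_complete hA⟩, fun A' hA' P hP0 hinv => ?_⟩
  refine hno _ (merge_sound hB hA') P hP0 fun g => ?_
  have := image_invariant (f := AddMonoidHom.fst G (ZMod (pieceTotal m B))) hinv g
  simpa using this

lemma good_lift {N₁ N₂ : ℕ} [NeZero N₁] [NeZero N₂]
    {F : Finset ((ℤ × ℤ) × ZMod N₁ × ZMod N₂)} {w : ℤ × ℤ}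
    (h : Good F ((w, 0) : (ℤ × ℤ) × ZMod N₁ × ZMod N₂)) :
    ∃ F' : Finset ((ℤ × ℤ) × ℤ × ℤ), Good F' ((w, 0) : (ℤ × ℤ) × ℤ × ℤ) := by
  obtain ⟨⟨A, hA⟩, hP⟩ := h
  set e : Fin F.card → (ℤ × ℤ) × ZMod N₁ × ZMod N₂ := fun i => (F.equivFin.symm i).1 with he
  have hinj : Injective e := Subtype.val_injective.comp F.equivFin.symm.injective
  have himg : (univ : Finset (Fin F.card)).image e = F := by
    ext f
    simp only [mem_image, mem_univ, true_and, he]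
    exact ⟨by rintro ⟨i, rfl⟩; exact (F.equivFin.symm i).2,
      fun hf => ⟨F.equivFin ⟨f, hf⟩, by simp⟩⟩
  refine ⟨liftTile e, ⟨_, lift_complete hinj (himg.symm ▸ hA)⟩, fun A' hA' P hP0 hinv => ?_⟩
  have h' := lift_sound hinj hA'
  rw [himg] at h'
  refine hP _ h' P hP0 fun g => ?_
  have := image_invariant (f := reduce N₁ N₂) hinv g
  simpa [reduce, Prod.mk_zero_zero] using this

end Transfer

/-- A system of equations without periodic solutions gives an aperiodic tile of `ℤ⁴`. -/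
theorem good_of_system {J : Type*} [Fintype J] [DecidableEq J] {q : J → ℕ} [∀ j, NeZero (q j)]
    {S : ℕ} [NeZero S] (hq : ∀ j, (q j).Prime) (hqi : Injective q) (hS : S.Prime)
    (hqS : ∀ j, q j ≠ S) (E : Finset (Finset ((ℤ × ℤ) × Idx q × Val q S))) (hE : E.Nonempty)
    (hex : ∃ A, ∀ F ∈ E, Tiles F A)
    (hno : ∀ A, (∀ F ∈ E, Tiles F A) → ∀ P : ℕ, 0 < P →
      ¬ ∀ g, g ∈ A ↔ g + ((((0 : ℤ), (P : ℤ)), 0, 0) : (ℤ × ℤ) × Idx q × Val q S) ∈ A) :
    ∃ (F : Finset ((ℤ × ℤ) × ℤ × ℤ)) (v : (ℤ × ℤ) × ℤ × ℤ), Good F v := by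
  classical
  set N := ∏ j, q j with hNdef
  set r := E.card with hrdef
  set m := N * S * r + 1 with hm
  have hS0 : 0 < S := hS.pos
  have hNS : ∀ x, 0 < x → 0 < x * S := fun x hx => Nat.mul_pos hx hS0
  set B := 2 ^ m * m * (N * S) + 2 ^ m * (N * S - 1) + 2 with hB
  set M := pieceTotal m B with hMdef
  have hN : 0 < N := Finset.prod_pos fun j _ => (hq j).pos
  have hNS' : 0 < N * S := hNS _ hN
  have hMeq : M = N * S * (r * B + 2 ^ m * m + 2 ^ m) + 1 := by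
    have h1 : M + 1 = m * B + 2 ^ m := by
      rw [hMdef, pieceTotal, sum_add_distrib, add_assoc, sum_two_pow_fin]; simp
    have h2 : B + 2 ^ m = N * S * (2 ^ m * m + 2 ^ m) + 2 := by
      obtain ⟨L, hL⟩ : ∃ L, N * S = L + 1 := ⟨N * S - 1, by omega⟩
      rw [hB, hL, Nat.add_sub_cancel]; ring
    have h3 : m * B + 2 ^ m = N * S * r * B + (B + 2 ^ m) := by rw [hm]; ring
    rw [h3, h2] at h1
    have h4 : N * S * r * B + N * S * (2 ^ m * m + 2 ^ m) =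
        N * S * (r * B + 2 ^ m * m + 2 ^ m) := by ring
    omega
  have hcop : Nat.Coprime (N * S) M := Nat.coprime_of_dvd' fun k _ h1 h2 => by
    rw [hMeq] at h2
    exact (Nat.dvd_add_right (h1.mul_right _)).1 h2
  haveI : NeZero (pieceTotal m B) := ⟨by rw [← hMdef, hMeq]; omega⟩
  haveI : NeZero N := ⟨hN.ne'⟩
  haveI : NeZero M := ⟨by rw [hMeq]; omega⟩
  haveI : NeZero (N * (S * M)) := ⟨mul_ne_zero hN.ne' (mul_ne_zero (NeZero.ne S) (NeZero.ne M))⟩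
  have hr : 0 < r := Finset.card_pos.2 hE
  set Fs : Fin m → Finset ((ℤ × ℤ) × Idx q × Val q S) := fun i =>
    (E.equivFin.symm ⟨(i : ℕ) % r, Nat.mod_lt _ hr⟩).1 with hFs
  have hsurj : ∀ F ∈ E, ∃ i, Fs i = F := by
    intro F hF
    set l := E.equivFin ⟨F, hF⟩
    have hl : (l : ℕ) < m := by
      have h1 := l.isLt
      have h2 : r ≤ N * S * r := Nat.le_mul_of_pos_left _ (by omega)
      omega
    refine ⟨⟨l, hl⟩, ?_⟩
    have e : (⟨(l : ℕ) % r, Nat.mod_lt _ hr⟩ : Fin r) = l := Fin.ext (Nat.mod_eq_of_lt l.isLt)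
    simp only [hFs, e, l, Equiv.symm_apply_apply]
  set v : ((ℤ × ℤ) × Idx q × Val q S) := (((0 : ℤ), (1 : ℤ)), 0, 0) with hv
  have hmerge := good_merge (B := B) (Fs := Fs) (v := v)
    (lt_of_le_of_lt (by
      calc m * 2 ^ m = 2 ^ m * m * 1 := by ring
        _ ≤ 2 ^ m * m * (N * S) := Nat.mul_le_mul_left _ (by omega))
      (show 2 ^ m * m * (N * S) < B by omega))
    ⟨hex.choose, fun i => hex.choose_spec _ (E.equivFin.symm _).2⟩
    (fun A hA P hP0 hinv => hno A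
      (fun F hF => by obtain ⟨i, rfl⟩ := hsurj F hF; exact hA i) P hP0
      fun g => by simpa [hv] using hinv g)
  let φ : ZMod N ≃+ Idx q := (ZMod.prodEquivPi q fun i j hij =>
    (Nat.coprime_primes (hq i) (hq j)).2
      fun e => hij (hqi e)).toAddEquiv
  have hS : Nat.Coprime N S := Nat.Coprime.prod_left fun j _ =>
    (Nat.coprime_primes (hq j) hS).2 (hqS j)
  let ψ : ZMod (N * (S * M)) ≃+ Idx q × ZMod S × ZMod (pieceTotal m B) :=
    (ZMod.chineseRemainder (Nat.Coprime.mul_right hS hcop.coprime_mul_right)).toAddEquiv.trans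
      (AddEquiv.prodCongr φ (ZMod.chineseRemainder hcop.coprime_mul_left).toAddEquiv)
  let θ : ((ℤ × ℤ) × Idx q × Val q S) × ZMod (pieceTotal m B) ≃+ (ℤ × ℤ) × ZMod N × ZMod (N * (S * M)) :=
    AddEquiv.prodAssoc.trans (AddEquiv.prodCongr (AddEquiv.refl _)
      (AddEquiv.prodAssoc.trans (AddEquiv.prodCongr φ.symm
        (AddEquiv.prodAssoc.trans ψ.symm))))
  have hfin := good_map θ hmerge
  have hθ : θ ((v, 0) : ((ℤ × ℤ) × Idx q × Val q S) × ZMod (pieceTotal m B)) = (((0 : ℤ), (1 : ℤ)), 0) := by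
    simp only [θ, hv, AddEquiv.trans_apply]
    refine Prod.ext rfl ?_
    show (φ.symm 0, ψ.symm 0) = 0
    simp
  rw [hθ] at hfin
  obtain ⟨F', hF'⟩ := good_lift hfin
  exact ⟨F', _, hF'⟩

/-- Four-dimensional space carries an aperiodic tile. -/
theorem exists_good : ∃ (F : Finset ((ℤ × ℤ) × ℤ × ℤ)) (v : (ℤ × ℤ) × ℤ × ℤ), Good F v :=
  good_of_system System.md_prime System.md_injective System.fact23.out System.md_ne System.eqs
    ⟨_, System.mem_eqs.2 (Or.inl rfl)⟩ ⟨_, System.complete⟩ (fun _ h P hP => System.sound h P hP)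

/-- Every space of dimension at least four carries a tile all of whose tilings are aperiodic. -/
theorem exists_aperiodic (d : ℕ) (hd : 4 ≤ d) : ∃ F : Finset (Fin d → ℤ), F.Nonempty ∧
    (∃ A : Set (Fin d → ℤ), ∀ g, ∃! f, f ∈ F ∧ g - f ∈ A) ∧
    ∀ A : Set (Fin d → ℤ), (∀ g, ∃! f, f ∈ F ∧ g - f ∈ A) →
      ¬ ∃ H : AddSubgroup (Fin d → ℤ), H.FiniteIndex ∧ ∀ h ∈ H, (fun a => a + h) '' A = A := by
  classical
  obtain ⟨F, v, hF⟩ := exists_good
  obtain ⟨r, rfl⟩ := Nat.exists_eq_add_of_le hd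
  let e : ((ℤ × ℤ) × ℤ × ℤ) × (Fin r → ℤ) ≃+ (Fin (4 + r) → ℤ) :=
    (LinearEquiv.ofFinrankEq (R := ℤ) _ _ (by
      simp [Module.finrank_prod])).toAddEquiv
  obtain ⟨⟨A₀, hA₀⟩, hno⟩ := good_map e (good_slice (K := Fin r → ℤ) hF)
  refine ⟨_, ?_, ⟨A₀, hA₀⟩, fun A hA ⟨H, hfi, hH⟩ => ?_⟩
  · obtain ⟨f, ⟨hf, -⟩, -⟩ := hA₀ 0
    exact ⟨f, hf⟩
  · refine hno A hA H.index (Nat.pos_of_ne_zero hfi.index_ne_zero) fun g => ?_
    set w := H.index • e ((v, 0) : ((ℤ × ℤ) × ℤ × ℤ) × (Fin r → ℤ))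
    have e1 := hH w (H.nsmul_index_mem _)
    constructor
    · intro hg
      rw [← e1]; exact ⟨g, hg, rfl⟩
    · intro hg
      rw [← e1] at hg
      obtain ⟨a, ha, he⟩ := hg
      rw [← add_right_cancel he]; exact ha

end Vale.Agent.P043
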