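import Mathlib

/-!
Tile equations for graphs of functions `ℤ × ℤ → I → I × S`, `I` a product of finite cyclic groups:
equalities, lines, clauses and counters.
-/

open Finset Function

namespace Vale.Agent.P043

/-- `A` is a tiling of `G` by the finite tile `F`. -/
def Tiles {G : Type*} [AddCommGroup G] (F : Finset G) (A : Set G) : Prop :=
  ∀ g, ∃! f, f ∈ F ∧ g - f ∈ A

section Graph

variable {N X W : Type*} [AddCommGroup N] [AddCommGroup X] [AddCommGroup W]
  [DecidableEq N] [DecidableEq X] [DecidableEq W]

/-- The graph of a function. -/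
def graphOf (a : N → X → W) : Set (N × X × W) := {g | g.2.2 = a g.1 g.2.1}

/-- The tile with pieces at shift `(sN k, sX k)` and translation `t k`. -/
def eqTile {K : Type*} [Fintype K] (sN : K → N) (sX : K → X) (t : K → W) : Finset (N × X × W) :=
  univ.image fun k => (-sN k, -sX k, t k)

/-- The covering map of an equation at an anchor. -/
def cov {K : Type*} (a : N → X → W) (sN : K → N) (sX : K → X) (t : K → W) (n : N) (x : X)
    (k : K) : W := t k + a (n + sN k) (x + sX k)

variable {K : Type*} [Fintype K] {a : N → X → W} {sN : K → N} {sX : K → X} {t : K → W}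

lemma tiles_of_bijective (h : ∀ n x, Bijective (cov a sN sX t n x)) :
    Tiles (eqTile sN sX t) (graphOf a) := by
  rintro ⟨n, x, z⟩
  obtain ⟨k, hk, huniq⟩ := (h n x).existsUnique z
  refine ⟨(-sN k, -sX k, t k), ⟨mem_image.2 ⟨k, mem_univ _, rfl⟩, ?_⟩, ?_⟩
  · show z - t k = a (n - -sN k) (x - -sX k)
    rw [sub_neg_eq_add, sub_neg_eq_add, ← hk]
    simp [cov]
  · rintro f ⟨hf, hA⟩
    obtain ⟨i, -, rfl⟩ := mem_image.1 hf
    change z - t i = a (n - -sN i) (x - -sX i) at hA
    rw [sub_neg_eq_add, sub_neg_eq_add] at hA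
    rw [huniq i (by simp only [cov]; rw [← hA]; abel)]

lemma bijective_of_tiles (hinj : Injective fun k => (-sN k, -sX k, t k))
    (h : Tiles (eqTile sN sX t) (graphOf a)) (n : N) (x : X) :
    Bijective (cov a sN sX t n x) := by
  have mem : ∀ i z, cov a sN sX t n x i = z →
      (n, x, z) - (-sN i, -sX i, t i) ∈ graphOf a := by
    intro i z hz
    show z - t i = a (n - -sN i) (x - -sX i)
    rw [sub_neg_eq_add, sub_neg_eq_add, ← hz]
    simp [cov]
  constructor
  · intro i k hik
    exact hinj ((h (n, x, cov a sN sX t n x i)).unique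
      ⟨mem_image.2 ⟨i, mem_univ _, rfl⟩, mem i _ rfl⟩
      ⟨mem_image.2 ⟨k, mem_univ _, rfl⟩, mem k _ hik.symm⟩)
  · intro z
    obtain ⟨f, ⟨hf, hA⟩, -⟩ := h (n, x, z)
    obtain ⟨i, -, rfl⟩ := mem_image.1 hf
    change z - t i = a (n - -sN i) (x - -sX i) at hA
    rw [sub_neg_eq_add, sub_neg_eq_add] at hA
    exact ⟨i, by simp only [cov]; rw [← hA]; abel⟩

/-- The tile whose tilings are the graphs. -/
def graphTile [Fintype W] : Finset (N × X × W) :=
  eqTile (fun _ : W => (0 : N)) (fun _ => (0 : X)) id

lemma graph_tiles [Fintype W] (a : N → X → W) : Tiles graphTile (graphOf a) :=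
  tiles_of_bijective fun n x => by
    have : cov a (fun _ : W => (0 : N)) (fun _ => (0 : X)) id n x = fun w => w + a n x := by
      funext w; simp [cov]
    rw [this]; exact (Equiv.addRight (a n x)).bijective

lemma exists_graph [Fintype W] {A : Set (N × X × W)} (h : Tiles graphTile A) :
    ∃ a : N → X → W, A = graphOf a := by
  have key : ∀ n x, ∃! v, (n, x, v) ∈ A := by
    intro n x
    obtain ⟨f, ⟨hf, hA⟩, huniq⟩ := h (n, x, 0)
    obtain ⟨w, -, rfl⟩ := mem_image.1 hf
    refine ⟨-w, by simpa using hA, fun v hv => ?_⟩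
    have := huniq (-(0 : N), -(0 : X), -v)
      ⟨mem_image.2 ⟨-v, mem_univ _, rfl⟩, by simpa using hv⟩
    simp only [id, Prod.mk.injEq] at this
    rw [← this.2.2, neg_neg]
  choose a ha hu using key
  refine ⟨a, Set.ext fun g => ⟨fun hg => hu g.1 g.2.1 g.2.2 hg, fun hg => ?_⟩⟩
  have := ha g.1 g.2.1
  rwa [← (show g.2.2 = a g.1 g.2.1 from hg)] at this

end Graph

section Gadgets

variable {J : Type*} [Fintype J] [DecidableEq J] {q : J → ℕ} [∀ j, NeZero (q j)] {S : ℕ} [NeZero S]

/-- The index group. -/
abbrev Idx (q : J → ℕ) := (j : J) → ZMod (q j)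

/-- The value group. -/
abbrev Val (q : J → ℕ) (S : ℕ) := Idx q × ZMod S

variable (a : ℤ × ℤ → Idx q → Val q S)

/-- The equation asserting that component `j` is invariant under a shift. -/
def equalTile (j : J) (hN : ℤ × ℤ) (hX : Idx q) : Finset ((ℤ × ℤ) × Idx q × Val q S) :=
  eqTile (fun w : Val q S => if w.1 j = 0 then hN else 0)
    (fun w : Val q S => if w.1 j = 0 then hX else 0) id

lemma equal_sound {j : J} {hN : ℤ × ℤ} {hX : Idx q}
    (h : Tiles (equalTile j hN hX) (graphOf a)) (n : ℤ × ℤ) (x : Idx q) :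
    (a (n + hN) (x + hX)).1 j = (a n x).1 j := by
  have hb := bijective_of_tiles (fun k i hki => (Prod.mk.inj (Prod.mk.inj hki).2).2) h n x
  by_contra hne
  have hw : (a (n + hN) (x + hX) - a n x).1 j ≠ 0 := by
    rw [Prod.fst_sub, Pi.sub_apply]; exact sub_ne_zero.2 hne
  have := hb.1 (a₁ := 0) (a₂ := a (n + hN) (x + hX) - a n x) (by simp [cov, sub_eq_zero, hne])
  rw [← this] at hw
  exact hw rfl

lemma equal_complete {j : J} {hN : ℤ × ℤ} {hX : Idx q}
    (h : ∀ n x, (a (n + hN) (x + hX)).1 j = (a n x).1 j) :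
    Tiles (equalTile j hN hX) (graphOf a) := by
  refine tiles_of_bijective fun n x => Finite.injective_iff_bijective.1 fun w w' hww => ?_
  simp only [cov, id] at hww
  have hg : ∀ v : Val q S,
      (a (n + if v.1 j = 0 then hN else 0) (x + if v.1 j = 0 then hX else 0)).1 j =
        (a n x).1 j := fun v => by
    split_ifs
    · exact h n x
    · simp
  have := congrArg (fun z : Val q S => z.1 j) hww
  simp only [Prod.fst_add, Pi.add_apply, hg] at this
  rw [add_right_cancel this] at hww
  exact add_right_cancel hww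

/-- Every component depends only on its own index. -/
def Dep : Prop := ∀ j n x y, x j = y j → (a n x).1 j = (a n y).1 j

lemma dep_of_tiles (h : ∀ j i, i ≠ j → Tiles (equalTile j 0 (Pi.single i 1)) (graphOf a)) :
    Dep a := by
  intro j n x y hxy
  suffices key : ∀ d : Idx q, d j = 0 → ∀ z, (a n (z + d)).1 j = (a n z).1 j by
    have := key (y - x) (by simp [hxy]) x
    rw [add_sub_cancel] at this
    exact this.symm
  intro d hd
  have hsum : d = ∑ i, Pi.single i (d i) := (Finset.univ_sum_single d).symm
  rw [hsum]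
  refine Finset.sum_induction _ (fun e => ∀ z, (a n (z + e)).1 j = (a n z).1 j)
    (fun e e' he he' z => by rw [← add_assoc, he', he]) (fun z => by rw [add_zero]) ?_
  intro i _
  rcases eq_or_ne i j with rfl | hij
  · intro z; rw [hd, Pi.single_zero, add_zero]
  have step : ∀ m : ℕ, ∀ z, (a n (z + m • Pi.single i 1)).1 j = (a n z).1 j := by
    intro m
    induction m with
    | zero => intro z; rw [zero_smul, add_zero]
    | succ m ih =>
      intro z
      have := equal_sound a (h j i hij) n (z + m • Pi.single i 1)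
      rw [add_zero, add_assoc, ← succ_nsmul, ih] at this
      exact this
  intro z
  have : (d i).val • (Pi.single i 1 : Idx q) = Pi.single i (d i) := by
    rw [← Pi.single_smul, nsmul_eq_mul, mul_one, ZMod.natCast_zmod_val]
  rw [← this]; exact step _ z

lemma Dep.complete (hdep : Dep a) {j i : J} (hij : i ≠ j) :
    Tiles (equalTile j 0 (Pi.single i 1)) (graphOf a) :=
  equal_complete a fun n x => by
    rw [add_zero]
    exact hdep j n _ _ (by rw [Pi.add_apply, Pi.single_eq_of_ne hij.symm, add_zero])

variable {a} (hdep : Dep a)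

/-- The equation excluding slope `d` in component `j`. -/
def lineTile (j : J) (d : ZMod (q j)) : Finset ((ℤ × ℤ) × Idx q × Val q S) :=
  eqTile (fun _ : Val q S => (0 : ℤ × ℤ)) (fun w : Val q S => Pi.single j (w.1 j))
    (fun w : Val q S => ((Function.update w.1 j (-d * w.1 j) : Idx q), w.2))

lemma lineTile_inj (j : J) (d : ZMod (q j)) : Injective fun w : Val q S =>
    (-(0 : ℤ × ℤ), -(Pi.single j (w.1 j) : Idx q),
      ((Function.update w.1 j (-d * w.1 j) : Idx q), w.2)) := by
  intro w w' h
  simp only [Prod.mk.injEq] at h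
  obtain ⟨-, h1, h2, h3⟩ := h
  refine Prod.ext (funext fun i => ?_) h3
  rcases eq_or_ne i j with rfl | hij
  · simpa using congrFun (neg_injective h1) i
  · simpa [hij] using congrFun h2 i

include hdep in
lemma line_sound {j : J} {d : ZMod (q j)} (h : Tiles (lineTile j d) (graphOf a)) (n : ℤ × ℤ)
    (x : Idx q) {s : ZMod (q j)} (hs : s ≠ 0) :
    (a n (x + Pi.single j s)).1 j - (a n x).1 j ≠ d * s := by
  intro he
  have hb := bijective_of_tiles (lineTile_inj j d) h n x
  set w : Val q S := ((Function.update ((a n x).1 - (a n (x + Pi.single j s)).1) j s : Idx q),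
    (a n x).2 - (a n (x + Pi.single j s)).2) with hw
  have : cov a (fun _ : Val q S => (0 : ℤ × ℤ)) (fun w : Val q S => Pi.single j (w.1 j))
      (fun w : Val q S => ((Function.update w.1 j (-d * w.1 j) : Idx q), w.2)) n x w =
    cov a (fun _ : Val q S => (0 : ℤ × ℤ)) (fun w : Val q S => Pi.single j (w.1 j))
      (fun w : Val q S => ((Function.update w.1 j (-d * w.1 j) : Idx q), w.2)) n x 0 := by
    refine Prod.ext (funext fun i => ?_) (by simp [cov, hw])
    rcases eq_or_ne i j with rfl | hij
    · simp [cov, hw]; linear_combination he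
    · simp [cov, hw, hij]
  have := congrArg (fun v : Val q S => v.1 j) (hb.1 this)
  simp [hw] at this
  exact hs this

include hdep in
lemma line_complete {j : J} [Fact (q j).Prime] {d : ZMod (q j)}
    (c : ℤ × ℤ → ZMod (q j)) (hc : ∀ n, c n ≠ d)
    (h : ∀ n x, (a n x).1 j = (a n 0).1 j + c n * x j) :
    Tiles (lineTile j d) (graphOf a) := by
  refine tiles_of_bijective fun n x => Finite.injective_iff_bijective.1 fun w w' hww => ?_
  simp only [cov, add_zero] at hww
  have e := congrArg (fun z : Val q S => z.1 j) hww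
  simp only [Prod.fst_add, Pi.add_apply, Function.update_self] at e
  rw [h n (x + _), h n (x + _)] at e
  simp only [Pi.add_apply, Pi.single_eq_same] at e
  have hj : w.1 j = w'.1 j := by
    refine sub_eq_zero.1 ((mul_eq_zero.1 (show (c n - d) * (w.1 j - w'.1 j) = 0 by
      linear_combination e)).resolve_left (sub_ne_zero.2 (hc n)))
  rw [hj] at hww
  have h12 := add_right_cancel hww
  simp only [Prod.mk.injEq] at h12
  refine Prod.ext (funext fun i => ?_) h12.2
  rcases eq_or_ne i j with rfl | hij
  · exact hj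
  · simpa [hij] using congrFun h12.1 i

include hdep in
/-- Excluding all slopes but zero and one forces a bit. -/
lemma bit_of_lines {j : J} [Fact (q j).Prime] (hq : 3 ≤ q j)
    (h : ∀ d : ZMod (q j), d ≠ 0 → d ≠ 1 → Tiles (lineTile j d) (graphOf a)) (n : ℤ × ℤ) :
    ∃ c : ZMod (q j), (c = 0 ∨ c = 1) ∧ ∀ x, (a n x).1 j = (a n 0).1 j + c * x j := by
  set g := fun y : ZMod (q j) => (a n (Pi.single j y)).1 j with hg
  have hgx : ∀ x : Idx q, (a n x).1 j = g (x j) := fun x => hdep j n _ _ (by simp)
  have h2 : (2 : ZMod (q j)) ≠ 0 := by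
    rw [show (2 : ZMod (q j)) = ((2 : ℕ) : ZMod (q j)) by norm_num, Ne, ZMod.natCast_eq_zero_iff]
    intro hd
    have := Nat.le_of_dvd (by norm_num) hd
    omega
  have hline : ∀ y s d : ZMod (q j), d ≠ 0 → d ≠ 1 → s ≠ 0 → g (y + s) - g y ≠ d * s := by
    intro y s d hd0 hd1 hs
    have := line_sound hdep (h d hd0 hd1) n (Pi.single j y) hs
    rwa [← Pi.single_add] at this
  have step : ∀ y, g (y + 1) - g y = 0 ∨ g (y + 1) - g y = 1 := by
    intro y
    by_contra hc
    rw [not_or] at hc
    exact hline y 1 _ hc.1 hc.2 one_ne_zero (mul_one _).symm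
  have same : ∀ y, g (y + 1 + 1) - g (y + 1) = g (y + 1) - g y := by
    intro y
    by_contra hne
    have hsum : g (y + 2) - g y = 1 := by
      rw [show y + 2 = y + 1 + 1 by ring]
      rcases step y with h1 | h1 <;> rcases step (y + 1) with h3 | h3
      · exact absurd (h3.trans h1.symm) hne
      · linear_combination h1 + h3
      · linear_combination h1 + h3
      · exact absurd (h3.trans h1.symm) hne
    refine hline y 2 (2⁻¹) (inv_ne_zero h2) (fun e => ?_) h2
      (by rw [hsum, inv_mul_cancel₀ h2])
    rw [inv_eq_one] at e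
    exact one_ne_zero (α := ZMod (q j)) (by linear_combination e)
  refine ⟨g 1 - g 0, by simpa using step 0, fun x => ?_⟩
  have all : ∀ m : ℕ, g m = g 0 + (g 1 - g 0) * m ∧ g (m + 1) - g m = g 1 - g 0 := by
    intro m
    induction m with
    | zero => simp
    | succ m ih =>
      push_cast
      exact ⟨by linear_combination ih.1 + ih.2, (same m).trans ih.2⟩
  have := (all (x j).val).1
  rw [ZMod.natCast_zmod_val] at this
  rw [hgx, hgx 0, this]
  rfl

/-- The indicator of a nonzero next coordinate. -/
def chi (π : Equiv.Perm J) (w : Val q S) : Idx q := fun j => if w.1 (π j) = 0 then 0 else 1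

/-- The equation asserting that some component `j` has increment `c j`. -/
def clauseTile (π : Equiv.Perm J) (c : Idx q) : Finset ((ℤ × ℤ) × Idx q × Val q S) :=
  eqTile (fun _ : Val q S => (0 : ℤ × ℤ)) (chi π)
    (fun w : Val q S => (w.1 - c * chi π w, w.2))

include hdep in
lemma clause_sound {π : Equiv.Perm J} {c : Idx q} (hq : ∀ j, 2 ≤ q j)
    (h : Tiles (clauseTile π c) (graphOf a)) (j₀ : J) (n : ℤ × ℤ) :
    ∃ j, ∀ x, (a n (x + Pi.single j 1)).1 j = (a n x).1 j + c j := by
  by_contra hcon
  simp only [not_exists, not_forall] at hcon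
  choose y hy using hcon
  have hone : ∀ j, (1 : ZMod (q j)) ≠ 0 := fun j => by
    haveI : Fact (1 < q j) := ⟨hq j⟩
    exact one_ne_zero
  set x : Idx q := fun j => y j j with hx
  set δ : Idx q := fun j => (a n (x + Pi.single j 1)).1 j - (a n x).1 j - c j with hδ
  have hδ0 : ∀ j, δ j ≠ 0 := by
    intro j h0
    simp only [hδ] at h0
    have e1 : (a n x).1 j = (a n (y j)).1 j := hdep j n _ _ rfl
    have e2 : (a n (x + Pi.single j 1)).1 j = (a n (y j + Pi.single j 1)).1 j :=
      hdep j n _ _ (by simp [hx])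
    rw [e1, e2] at h0
    exact hy j (by linear_combination h0)
  set w : Val q S := (-δ, (a n x).2 - (a n (x + 1)).2)
  have hχ : chi π w = 1 := funext fun j => by
    simp only [chi, w, Pi.neg_apply, neg_eq_zero, Pi.one_apply]
    rw [if_neg (hδ0 _)]
  have hχ0 : chi π (0 : Val q S) = 0 := funext fun j => by simp [chi]
  have hinj : Injective fun w : Val q S =>
      (-(0 : ℤ × ℤ), -chi π w, (w.1 - c * chi π w, w.2)) := by
    intro u v huv
    simp only [Prod.mk.injEq] at huv
    obtain ⟨-, h1, h2, h3⟩ := huv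
    rw [neg_injective h1] at h2
    exact Prod.ext (sub_left_injective h2) h3
  have hb := bijective_of_tiles hinj h n x
  have : cov a (fun _ : Val q S => (0 : ℤ × ℤ)) (chi π)
      (fun w : Val q S => (w.1 - c * chi π w, w.2)) n x w =
    cov a (fun _ : Val q S => (0 : ℤ × ℤ)) (chi π)
      (fun w : Val q S => (w.1 - c * chi π w, w.2)) n x 0 := by
    simp only [cov, add_zero, hχ, hχ0, mul_one, mul_zero, sub_zero, Prod.fst_zero, Prod.snd_zero]
    refine Prod.ext (funext fun j => ?_) (by simp [w])
    have e : (a n (x + 1)).1 j = (a n (x + Pi.single j 1)).1 j := hdep j n _ _ (by simp)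
    simp [w, e, hδ]
  have := hb.1 this
  exact hδ0 j₀ (by simpa [w] using congrArg (fun v : Val q S => v.1 j₀) this)

include hdep in
lemma clause_complete {π : Equiv.Perm J} (hπ : ∀ P : J → Prop, (∀ j, P (π j) → P j) →
      (∃ j, P j) → ∀ j, P j) {c : Idx q}
    (h : ∀ n, ∃ j, ∀ x, (a n (x + Pi.single j 1)).1 j = (a n x).1 j + c j) :
    Tiles (clauseTile π c) (graphOf a) := by
  refine tiles_of_bijective fun n x => Finite.injective_iff_bijective.1 fun w w' hww => ?_
  obtain ⟨k, hk⟩ := h n
  simp only [cov, add_zero] at hww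
  have comp : ∀ j, w.1 j - c j * chi π w j + (a n (x + chi π w)).1 j =
      w'.1 j - c j * chi π w' j + (a n (x + chi π w')).1 j := fun j => by
    simpa using congrArg (fun z : Val q S => z.1 j) hww
  have hk' : ∀ v : Val q S, (a n (x + chi π v)).1 k = (a n x).1 k + c k * chi π v k := by
    intro v
    by_cases hv : v.1 (π k) = 0
    · rw [show chi π v k = 0 from if_pos hv, mul_zero, add_zero]
      exact hdep k n _ _ (by simp [chi, hv])
    · rw [show chi π v k = 1 from if_neg hv, mul_one, ← hk x]
      exact hdep k n _ _ (by simp [chi, hv])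
  have hwk : w.1 k = w'.1 k := by
    have e := comp k
    rw [hk', hk'] at e
    linear_combination e
  have hall : ∀ j, w.1 j = w'.1 j := hπ _ (fun j hj => by
    have e := comp j
    have hχ : chi π w j = chi π w' j := by simp [chi, hj]
    have hg : (a n (x + chi π w)).1 j = (a n (x + chi π w')).1 j := hdep j n _ _ (by simp [hχ])
    rw [hg, hχ] at e
    linear_combination e) ⟨k, hwk⟩
  have hχ : chi π w = chi π w' := funext fun j => by simp [chi, hall]
  rw [hχ] at hww
  have := add_right_cancel hww
  exact Prod.ext (funext hall) (Prod.mk.inj this).2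

/-- The shift part of the counter. -/
def onSet (U : Finset J) (w : Idx q) : Idx q := fun j => if j ∈ U then w j else 0

/-- The counter over `L` consecutive sites, with reference components `U`. -/
def counterTile (L : ℕ) (U : Finset J) : Finset ((ℤ × ℤ) × Idx q × Val q S) :=
  eqTile (fun k : Fin L × Idx q => ((0, (k.1 : ℕ)) : ℤ × ℤ)) (fun k => onSet U k.2)
    (fun k => ((fun j => if j ∈ U then -k.2 j else k.2 j : Idx q), 0))

lemma counterTile_inj (L : ℕ) (U : Finset J) : Injective fun k : Fin L × Idx q =>
    (-((0, (k.1 : ℕ)) : ℤ × ℤ), -onSet U k.2,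
      (((fun j => if j ∈ U then -k.2 j else k.2 j : Idx q), 0) : Val q S)) := by
  intro u v h
  simp only [Prod.mk.injEq, Prod.neg_mk, neg_inj] at h
  obtain ⟨⟨-, h0⟩, -, h2, -⟩ := h
  refine Prod.ext (Fin.ext (by exact_mod_cast h0)) (funext fun j => ?_)
  have := congrFun h2 j
  by_cases hj : j ∈ U <;> simpa [hj] using this

lemma card_fiber (j : J) (P : ZMod (q j) → Prop) [DecidablePred P] :
    (univ.filter fun w : Idx q => P (w j)).card =
      (univ.filter P).card * Fintype.card ((i : {i // i ≠ j}) → ZMod (q i.1)) := by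
  rw [← Fintype.card_subtype, ← Fintype.card_subtype, ← Fintype.card_prod]
  refine Fintype.card_congr ?_
  exact ((Equiv.piSplitAt j fun i => ZMod (q i)).subtypeEquiv (q := fun z => P z.1)
    fun w => Iff.rfl).trans (Equiv.prodSubtypeFstEquivSubtypeProd (p := P))

include hdep in
/-- The number of sloped sites in each window is a multiple of the modulus. -/
lemma counter_sound {U : Finset J} (h : Tiles (counterTile S U) (graphOf a)) {j : J} (hj : j ∈ U)
    (c : ℤ × ℤ → ZMod (q j)) (hc : ∀ n, c n = 0 ∨ c n = 1)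
    (haff : ∀ n x, (a n x).1 j = (a n 0).1 j + c n * x j) (n : ℤ × ℤ) :
    q j ∣ (univ.filter fun i : Fin S => c (n + ((0, (i : ℕ)) : ℤ × ℤ)) = 1).card := by
  have hb := bijective_of_tiles (counterTile_inj S U) h n 0
  set ω := fun i : Fin S => (a (n + ((0, (i : ℕ)) : ℤ × ℤ)) 0).1 j
  set cs := fun i : Fin S => c (n + ((0, (i : ℕ)) : ℤ × ℤ))
  have hcov : ∀ k : Fin S × Idx q, (cov a (fun k : Fin S × Idx q => ((0, (k.1 : ℕ)) : ℤ × ℤ))
      (fun k => onSet U k.2)
      (fun k => (((fun j => if j ∈ U then -k.2 j else k.2 j : Idx q), 0) : Val q S)) n 0 k).1 j =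
      ω k.1 + (cs k.1 - 1) * k.2 j := by
    intro k
    simp only [cov, Prod.fst_add, Pi.add_apply, if_pos hj, zero_add]
    rw [haff _ (onSet U k.2)]
    simp only [onSet, if_pos hj, ω, cs]
    ring
  set M := Fintype.card ((i : {i // i ≠ j}) → ZMod (q i.1))
  set e := Equiv.ofBijective _ hb
  have hcount : (univ.filter fun k : Fin S × Idx q => ω k.1 + (cs k.1 - 1) * k.2 j = 0).card =
      (univ.filter fun z : Val q S => z.1 j = 0).card := by
    refine card_equiv e fun k => ?_
    simp only [mem_filter, mem_univ, true_and]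
    rw [← hcov]; rfl
  have hright : (univ.filter fun z : Val q S => z.1 j = 0).card = S * M := by
    rw [show (univ.filter fun z : Val q S => z.1 j = 0) =
      (univ.filter fun w : Idx q => w j = 0) ×ˢ univ by ext z; simp]
    rw [card_product, card_univ, ZMod.card, card_fiber j (fun y => y = 0),
      show (univ.filter fun y : ZMod (q j) => y = 0) = {0} by ext y; simp, card_singleton, one_mul,
      mul_comm]
  have hleft : (univ.filter fun k : Fin S × Idx q => ω k.1 + (cs k.1 - 1) * k.2 j = 0).card =
      ∑ i, (if cs i = 1 then (if ω i = 0 then q j else 0) else 1) * M := by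
    rw [card_filter, Fintype.sum_prod_type]
    refine sum_congr rfl fun i _ => ?_
    rw [← card_filter]
    refine Eq.trans (by convert card_fiber j (fun y => ω i + (cs i - 1) * y = 0) using 3) ?_
    congr 1
    by_cases h1 : cs i = 1
    · rw [if_pos h1]
      by_cases h2 : ω i = 0
      · rw [if_pos h2, filter_true_of_mem (fun y _ => by simp [h1, h2]), card_univ, ZMod.card]
      · rw [if_neg h2, filter_false_of_mem (fun y _ => by simp [h1, h2]), card_empty]
    · rw [if_neg h1]
      have h0 : cs i = 0 := (hc _).resolve_right h1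
      rw [show (univ.filter fun y => ω i + (cs i - 1) * y = 0) = {ω i} by
        ext y; simp [h0, ← sub_eq_add_neg, sub_eq_zero]; exact eq_comm, card_singleton]
  rw [hcount, hright, ← sum_mul] at hleft
  have hM : 0 < M := Fintype.card_pos
  have hS := Nat.eq_of_mul_eq_mul_right hM hleft
  have hsplit : (univ.filter fun i => cs i = 1).card +
      (univ.filter fun i => ¬ cs i = 1).card = S := by
    rw [card_filter_add_card_filter_not, card_univ, Fintype.card_fin]
  rw [sum_ite, sum_const, smul_eq_mul, mul_one, sum_ite, sum_const, sum_const_zero, add_zero,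
    smul_eq_mul] at hS
  exact ⟨((univ.filter fun i => cs i = 1).filter fun i => ω i = 0).card, by
    show (univ.filter fun i => cs i = 1).card = _
    rw [mul_comm]
    omega⟩

lemma counter_complete {L : ℕ} (U : Finset J)
    (hcard : L * Fintype.card (Idx q) = Fintype.card (Val q S))
    (hinj : ∀ n x, Injective (cov a (fun k : Fin L × Idx q => ((0, (k.1 : ℕ)) : ℤ × ℤ))
      (fun k => onSet U k.2)
      (fun k => (((fun j => if j ∈ U then -k.2 j else k.2 j : Idx q), 0) : Val q S)) n x)) :
    Tiles (counterTile L U) (graphOf a) :=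
  tiles_of_bijective fun n x => (Fintype.bijective_iff_injective_and_card _).2
    ⟨hinj n x, by rw [Fintype.card_prod, Fintype.card_fin, hcard]⟩

end Gadgets

end Vale.Agent.P043
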