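import Vale.Agent.P043.Gadgets

/-!
Rigid codes on the line and the transfer of tiles from `G × ZMod N` to `G × ℤ`.
-/

open Finset Function

namespace Vale.Agent.P043.Line

/-- The segment of length `K` with a dent at `d` and the matching bump. -/
noncomputable def segment (K d : ℕ) : Finset ℤ :=
  insert ((K : ℤ) + d) ((Ico (0 : ℤ) K).erase (d : ℤ))

lemma mem_segment {K d : ℕ} {r : ℤ} :
    r ∈ segment K d ↔ r = (K : ℤ) + d ∨ (r ≠ d ∧ 0 ≤ r ∧ r < K) := by
  simp only [segment, mem_insert, mem_erase, mem_Ico]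

lemma segment_cover {K d : ℕ} (hdK : d + 3 ≤ K) (u : ℤ) :
    ∃ z : ℤ, u - (K : ℤ) * z ∈ segment K d := by
  have h1 := Int.emod_add_mul_ediv u K
  have b1 := Int.emod_nonneg u (show (K : ℤ) ≠ 0 by omega)
  have c1 := Int.emod_lt_of_pos u (show (0 : ℤ) < K by omega)
  by_cases hd : u % (K : ℤ) = d
  · exact ⟨u / K - 1, mem_segment.2 (Or.inl (by rw [mul_sub, mul_one]; omega))⟩
  · exact ⟨u / K, mem_segment.2 (Or.inr ⟨by omega, by omega, by omega⟩)⟩

lemma segment_unique {K d : ℕ} (hdK : d + 3 ≤ K) {r r' z : ℤ} (hr : r ∈ segment K d)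
    (hr' : r' ∈ segment K d) (h : r - r' = (K : ℤ) * z) : r = r' := by
  rw [mem_segment] at hr hr'
  have hK : (0 : ℤ) < K := by omega
  rcases lt_trichotomy z 0 with hz | rfl | hz
  · have : (K : ℤ) * z ≤ (K : ℤ) * (-1) := by gcongr; omega
    rcases lt_or_eq_of_le (show z ≤ -1 by omega) with hz' | rfl
    · have : (K : ℤ) * z ≤ (K : ℤ) * (-2) := by gcongr; omega
      omega
    · omega
  · omega
  · rcases lt_or_eq_of_le (show 1 ≤ z by omega) with hz' | rfl
    · have : (K : ℤ) * 2 ≤ (K : ℤ) * z := by gcongr; omega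
      omega
    · omega

variable {K n : ℕ} {code : Fin n → ℕ} (hcode : ∀ i, 2 ≤ code i ∧ code i + 3 ≤ K)
  (hinj : Injective code) {S : Set (ℤ × Fin n)}

include hcode hinj

lemma next_mem (hS : ∀ u, ∃! s, s ∈ S ∧ u - s.1 ∈ segment K (code s.2)) {c : ℤ} {i : Fin n}
    (hc : (c, i) ∈ S) : (c + K, i) ∈ S := by
  obtain ⟨h2, h3⟩ := hcode i
  obtain ⟨⟨o, j⟩, ⟨hmem, ho⟩, -⟩ := hS (c + K)
  obtain ⟨h2', h3'⟩ := hcode j
  have hne : (o, j) ≠ (c, i) := by
    intro e
    simp only [Prod.mk.injEq] at e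
    simp only [e.1, e.2, add_sub_cancel_left, mem_segment] at ho
    omega
  have excl : ∀ u, u - c ∈ segment K (code i) → u - o ∉ segment K (code j) := fun u a b =>
    hne ((hS u).unique ⟨hmem, b⟩ ⟨hc, a⟩)
  rw [mem_segment] at ho
  simp only at ho
  rcases ho with ho | ⟨-, hr0, hrK⟩
  · exfalso
    refine excl (c + 1) ?_ ?_ <;> rw [mem_segment] <;> omega
  · rcases lt_or_eq_of_le hr0 with hpos | hzero
    · exfalso
      by_cases hd : o = c + code i
      · refine excl (o + 1) ?_ ?_ <;> rw [mem_segment] <;> omega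
      · refine excl o ?_ ?_ <;> rw [mem_segment] <;> omega
    · have hk : code j = code i := by
        by_contra hne'
        refine excl (c + K + code i) ?_ ?_ <;> rw [mem_segment] <;> omega
      rw [show c + (K : ℤ) = o by omega, ← hinj hk]
      exact hmem

lemma prev_mem (hS : ∀ u, ∃! s, s ∈ S ∧ u - s.1 ∈ segment K (code s.2)) {c : ℤ} {i : Fin n}
    (hc : (c, i) ∈ S) : (c - K, i) ∈ S := by
  obtain ⟨⟨o, j⟩, ⟨hmem, ho⟩, -⟩ := hS (c - K + 1)
  have := (hS (c + 1)).unique ⟨next_mem hcode hinj hS hmem, by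
    convert ho using 1
    ring⟩ ⟨hc, by
      have := hcode i
      simp only [add_sub_cancel_left, mem_segment]; omega⟩
  simp only [Prod.mk.injEq] at this
  rw [← this.1, add_sub_cancel_right, ← this.2]
  exact hmem

/-- Any tiling by the segments uses one kind, along one progression. -/
theorem rigid (hS : ∀ u, ∃! s, s ∈ S ∧ u - s.1 ∈ segment K (code s.2)) :
    ∃ c i, ∀ s, s ∈ S ↔ s.2 = i ∧ ∃ z : ℤ, s.1 = c + (K : ℤ) * z := by
  obtain ⟨⟨c, i⟩, ⟨hc, -⟩, -⟩ := hS 0
  have hall : ∀ z : ℤ, (c + (K : ℤ) * z, i) ∈ S := by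
    intro z
    induction z using Int.induction_on with
    | zero => rwa [mul_zero, add_zero]
    | succ z ih =>
      have := next_mem hcode hinj hS ih
      rwa [add_assoc, ← mul_add_one] at this
    | pred z ih =>
      have := prev_mem hcode hinj hS ih
      rwa [add_sub_assoc, ← mul_sub_one] at this
  refine ⟨c, i, fun s => ⟨fun hs => ?_, fun ⟨h1, z, hz⟩ => ?_⟩⟩
  · obtain ⟨s₁, s₂⟩ := s
    have hmem : (1 : ℤ) ∈ segment K (code s₂) := by
      have := hcode s₂
      rw [mem_segment]; omega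
    obtain ⟨z, hz⟩ := segment_cover (hcode i).2 (s₁ + 1 - c)
    have := (hS (s₁ + 1)).unique ⟨hs, by rwa [add_sub_cancel_left]⟩
      ⟨hall z, by rwa [← sub_sub]⟩
    simp only [Prod.mk.injEq] at this
    exact ⟨this.2, z, this.1⟩
  · have := hall z
    rwa [← hz, ← h1] at this

omit hcode hinj

section Transfer

variable {G : Type*} [AddCommGroup G] [DecidableEq G] {N : ℕ} [NeZero N]

/-- The chosen representative. -/
def sect (g : G × ZMod N) : G × ℤ := (g.1, (g.2.val : ℤ))

/-- The reduction map. -/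
def red (G : Type*) [AddCommGroup G] (N : ℕ) : G × ℤ →+ G × ZMod N :=
  AddMonoidHom.prodMap (AddMonoidHom.id G) (Int.castAddHom (ZMod N))

/-- The kernel, parametrised. -/
def ker1 (G : Type*) [AddCommGroup G] (N : ℕ) : ℤ →+ G × ℤ where
  toFun u := (0, (N : ℤ) * u)
  map_zero' := by simp
  map_add' u v := by simp [mul_add]

omit [DecidableEq G] [NeZero N] in
lemma red_ker1 (u : ℤ) : red G N (ker1 G N u) = 0 := by
  simp [red, ker1]

omit [DecidableEq G] in
lemma red_sect (g : G × ZMod N) : red G N (sect g) = g := by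
  simp [red, sect]

omit [DecidableEq G] [NeZero N] in
lemma exists_ker1 {P Q : G × ℤ} (h : red G N P = red G N Q) : ∃ u, P = Q + ker1 G N u := by
  simp only [red, AddMonoidHom.coe_prodMap, Prod.map, AddMonoidHom.id_apply,
    Int.coe_castAddHom, Prod.mk.injEq] at h
  obtain ⟨u, hu⟩ := (ZMod.intCast_eq_intCast_iff_dvd_sub _ _ _).1 h.2.symm
  refine ⟨u, Prod.ext (by simp [ker1, h.1]) ?_⟩
  simp [ker1]
  omega

omit [DecidableEq G] in
lemma ker1_injective : Injective (ker1 G N) := by
  intro u v h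
  simp only [ker1, AddMonoidHom.coe_mk, ZeroHom.coe_mk, Prod.mk.injEq, true_and] at h
  exact mul_left_cancel₀ (by exact_mod_cast NeZero.ne N) h

variable {n : ℕ} (e : Fin n → G × ZMod N)

/-- The lifted tile. -/
noncomputable def liftTile : Finset (G × ℤ) :=
  univ.biUnion fun i : Fin n =>
    (segment (n + 5) (2 + (i : ℕ))).image fun r => sect (e i) + ker1 G N r

lemma code_ok (i : Fin n) : 2 ≤ 2 + (i : ℕ) ∧ 2 + (i : ℕ) + 3 ≤ n + 5 := by omega

lemma mem_liftTile {P : G × ℤ} : P ∈ liftTile e ↔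
    ∃ i : Fin n, ∃ r ∈ segment (n + 5) (2 + (i : ℕ)), P = sect (e i) + ker1 G N r := by
  simp only [liftTile, mem_biUnion, mem_univ, true_and, mem_image, eq_comm]

variable {e} (he : Injective e)

include he

theorem lift_sound {A : Set (G × ℤ)} (h : Tiles (liftTile e) A) :
    Tiles (univ.image e) (red G N '' A) := by
  intro g
  set S : Set (ℤ × Fin n) := {s | sect g + ker1 G N s.1 - sect (e s.2) ∈ A} with hSdef
  have hS : ∀ u, ∃! s, s ∈ S ∧ u - s.1 ∈ segment (n + 5) (2 + (s.2 : ℕ)) := by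
    intro u
    obtain ⟨t, ⟨ht, hA⟩, huniq⟩ := h (sect g + ker1 G N u)
    obtain ⟨i, r, hr, rfl⟩ := (mem_liftTile e).1 ht
    refine ⟨(u - r, i), ⟨?_, by rwa [sub_sub_cancel]⟩, ?_⟩
    · show sect g + ker1 G N (u - r) - sect (e i) ∈ A
      convert hA using 1
      rw [map_sub]; abel
    · rintro ⟨c, k⟩ ⟨hc, hk⟩
      have hh := huniq (sect (e k) + ker1 G N (u - c)) ⟨(mem_liftTile e).2 ⟨k, _, hk, rfl⟩, by
        convert (show sect g + ker1 G N c - sect (e k) ∈ A from hc) using 1
        rw [map_sub]; abel⟩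
      have hki : k = i := he (by
        have := congrArg (red G N) hh
        simpa [red_sect, red_ker1] using this)
      subst hki
      have := ker1_injective (add_left_cancel hh)
      rw [← this, sub_sub_cancel]
  obtain ⟨c, i, hrig⟩ := rigid code_ok (fun a b hab => Fin.ext (by omega)) hS
  refine ⟨e i, ⟨mem_image_of_mem _ (mem_univ _), ?_⟩, ?_⟩
  · exact ⟨sect g + ker1 G N c - sect (e i),
      (hrig (c, i)).2 ⟨rfl, 0, by simp⟩, by simp [red_sect, red_ker1]⟩
  · rintro f ⟨hf, a, ha, hfa⟩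
    obtain ⟨k, -, rfl⟩ := mem_image.1 hf
    obtain ⟨u, hu⟩ := exists_ker1 (N := N) (P := a + sect (e k)) (Q := sect g)
      (by simp [red_sect, hfa])
    have : ((u, k) : ℤ × Fin n) ∈ S := by
      show sect g + ker1 G N u - sect (e k) ∈ A
      rw [← hu, add_sub_cancel_right]; exact ha
    obtain rfl : k = i := ((hrig _).1 this).1
    rfl

theorem lift_complete {A₀ : Set (G × ZMod N)} (h : Tiles (univ.image e) A₀) :
    Tiles (liftTile e) {P | red G N P ∈ A₀ ∧ ∃ z : ℤ,
      P = sect (red G N P) + ker1 G N (((n + 5 : ℕ) : ℤ) * z)} := by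
  intro P
  set K := ((n + 5 : ℕ) : ℤ) with hK
  obtain ⟨f, ⟨hf, hfA⟩, huniq⟩ := h (red G N P)
  obtain ⟨i, -, rfl⟩ := mem_image.1 hf
  set g₀ := red G N P - e i with hg₀
  obtain ⟨u, hu⟩ := exists_ker1 (N := N) (P := P) (Q := sect g₀ + sect (e i))
    (by simp [red_sect, hg₀])
  obtain ⟨z, hz⟩ := segment_cover (code_ok i).2 u
  rw [← hK] at hz
  set r := u - K * z with hr
  have hPr : P - (sect (e i) + ker1 G N r) = sect g₀ + ker1 G N (K * z) := by
    rw [hu, hr, map_sub]; abel
  refine ⟨sect (e i) + ker1 G N r, ⟨(mem_liftTile e).2 ⟨i, r, hz, rfl⟩, ?_⟩, ?_⟩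
  · rw [hPr]
    refine ⟨by simpa [red_sect, red_ker1] using hfA, z, ?_⟩
    simp [red_sect, red_ker1]
  · rintro t ⟨ht, hA, z', hz'⟩
    obtain ⟨k, r', hr', rfl⟩ := (mem_liftTile e).1 ht
    have hk : e k = e i := huniq (e k) ⟨mem_image_of_mem _ (mem_univ _), by
      simpa [red_sect, red_ker1] using hA⟩
    obtain rfl := he hk
    have hred : red G N (P - (sect (e k) + ker1 G N r')) = g₀ := by
      simp [red_sect, red_ker1, hg₀]
    rw [hred] at hz'
    have h4 : r + K * z = r' + K * z' := by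
      refine ker1_injective (G := G) (N := N) ?_
      rw [map_add, map_add]
      have e1 : P = sect g₀ + ker1 G N (K * z) + (sect (e k) + ker1 G N r) := by
        rw [← hPr]; abel
      have e2 : P = sect g₀ + ker1 G N (K * z') + (sect (e k) + ker1 G N r') := by
        rw [← hz']; abel
      have := e1.symm.trans e2
      linear_combination (norm := abel) this
    have := segment_unique (code_ok k).2 (z := z' - z) hz hr'
      (by rw [← hK]; linear_combination h4)
    rw [this]

end Transfer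

end Vale.Agent.P043.Line
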