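import Vale.Agent.P043.Board
import Vale.Agent.P043.Gadgets

/-!
The system of tile equations encoding seeded boards of width `23 * 23`.
-/

open Finset Function

namespace Vale.Agent.P043.System

open Board

instance fact23 : Fact (Nat.Prime 23) := ⟨by norm_num⟩

/-- Components: three states, and one bit for each column and digit. -/
abbrev Comp := Fin 3 ⊕ (Fin 529 × Fin 22)

/-- The moduli. -/
noncomputable def md : Comp → ℕ
  | Sum.inl k => (![5, 7, 11] : Fin 3 → ℕ) k
  | Sum.inr v => Nat.nth Nat.Prime (30 + (Fintype.equivFin (Fin 529 × Fin 22) v : ℕ))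

lemma md_prime (j : Comp) : (md j).Prime := by
  rcases j with k | v
  · fin_cases k <;> norm_num [md]
  · exact Nat.nth_mem_of_infinite Nat.infinite_setOfPred_prime _

instance fact_md (j : Comp) : Fact (md j).Prime := ⟨md_prime j⟩

lemma md_inr (v : Fin 529 × Fin 22) : 23 < md (Sum.inr v) :=
  lt_of_lt_of_le (by omega) (Nat.add_two_le_nth_prime _)

lemma md_inl (k : Fin 3) : md (Sum.inl k) ≤ 11 ∧ 5 ≤ md (Sum.inl k) := by
  fin_cases k <;> norm_num [md]

lemma md_three (j : Comp) : 3 ≤ md j := by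
  rcases j with k | v
  · have := md_inl k; omega
  · have := md_inr v; omega

lemma md_ne (j : Comp) : md j ≠ 23 := by
  rcases j with k | v
  · have := md_inl k; omega
  · have := md_inr v; omega

lemma md_injective : Injective md := by
  intro i j h
  rcases i with i | i <;> rcases j with j | j
  · fin_cases i <;> fin_cases j <;> simp_all [md]
  · have := md_inl i; have := md_inr j; omega
  · have := md_inl j; have := md_inr i; omega
  · have := (Nat.nth_strictMono Nat.infinite_setOfPred_prime).injective h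
    exact congrArg Sum.inr ((Fintype.equivFin _).injective (Fin.ext (by omega)))

/-- The block of a residue. -/
def block (r : ZMod 23) : Fin 3 := if (r - 1).val < 5 then 0 else if (r - 1).val < 12 then 1 else 2

/-- The first position of each block. -/
def start (k : Fin 3) : ℕ := (![0, 5, 12] : Fin 3 → ℕ) k

lemma block_zero : block 0 = 2 := by decide

lemma block_range (r : ZMod 23) :
    start (block r) ≤ (r - 1).val ∧ (r - 1).val < start (block r) + md (Sum.inl (block r)) := by
  have := ZMod.val_lt (r - 1)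
  unfold block
  split_ifs <;> simp [start, md] <;> omega

lemma slot_inj {k k' : Fin 3} {y : ZMod (md (Sum.inl k))} {y' : ZMod (md (Sum.inl k'))}
    (h : ((start k + y.val : ℕ) : ZMod 23) = ((start k' + y'.val : ℕ) : ZMod 23)) :
    k = k' ∧ y.val = y'.val := by
  have h1 := y.val_lt
  have h2 := y'.val_lt
  have e : ∀ i : Fin 3, (i = 0 ∧ start i = 0 ∧ md (Sum.inl i) = 5) ∨
      (i = 1 ∧ start i = 5 ∧ md (Sum.inl i) = 7) ∨
      (i = 2 ∧ start i = 12 ∧ md (Sum.inl i) = 11) := fun i => by
    fin_cases i <;> simp [start, md]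
  rw [ZMod.natCast_eq_natCast_iff'] at h
  rcases e k with ⟨rfl, a, b⟩ | ⟨rfl, a, b⟩ | ⟨rfl, a, b⟩ <;>
    rcases e k' with ⟨rfl, c, d⟩ | ⟨rfl, c, d⟩ | ⟨rfl, c, d⟩ <;>
    rw [Nat.mod_eq_of_lt (by omega), Nat.mod_eq_of_lt (by omega)] at h <;>
    first
      | exact ⟨rfl, by omega⟩
      | exfalso; omega

/-- The admissible patterns of bits. -/
def Allowed (d : Comp → Bool) : Prop :=
  ∃ (k : Fin 3) (A B : ℤ),
    (∀ k', d (Sum.inl k') = true ↔ k' = k) ∧
    (∀ (j : Fin 529) (v : Fin 22),
      d (Sum.inr (j, v)) = true ↔ lastDigit 23 (A * (j : ℕ) + B) = (((v : ℕ) + 1 : ℕ) : ZMod 23)) ∧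
    (k ≠ 2 → ∃ v : ZMod 23, block v = k ∧
      ∀ i : ℕ, i < 23 → lastDigit 23 (A * ((23 * i : ℕ) : ℤ) + B) = v)

lemma exists_cycle (α : Type*) [Fintype α] : ∃ π : Equiv.Perm α,
    ∀ P : α → Prop, (∀ j, P (π j) → P j) → (∃ j, P j) → ∀ j, P j := by
  obtain ⟨n, hn⟩ : ∃ n, Fintype.card α = n := ⟨_, rfl⟩
  rcases n with - | n
  · haveI := Fintype.card_eq_zero_iff.1 hn
    exact ⟨Equiv.refl _, fun P _ _ j => isEmptyElim j⟩
  set e : α ≃ ZMod (n + 1) := Fintype.equivFinOfCardEq hn
  refine ⟨e.trans ((Equiv.addRight 1).trans e.symm), fun P hP ⟨j₀, hj₀⟩ j => ?_⟩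
  have key : ∀ m : ℕ, P (e.symm (e j₀ - (m : ZMod (n + 1)))) := by
    intro m
    induction m with
    | zero => simpa using hj₀
    | succ m ih =>
      refine hP _ ?_
      simpa [sub_add] using ih
  have := key (e j₀ - e j).val
  simpa using this

/-- A single cycle on the components. -/
noncomputable def cyc : Equiv.Perm Comp := (exists_cycle Comp).choose

/-- The clause excluding a pattern. -/
noncomputable def excl (d : Comp → Bool) : Idx md := fun j => if d j then 0 else 1

/-- The states. -/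
def states : Finset Comp := univ.image Sum.inl

/-- The ambient group of the system. -/
abbrev Amb := (ℤ × ℤ) × Idx md × Val md 23

open scoped Classical in
/-- All equations. -/
noncomputable def eqs : Finset (Finset Amb) :=
  {graphTile, counterTile 23 states} ∪
    ((univ : Finset (Comp × Comp)).filter fun i => i.2 ≠ i.1).image
      (fun i => equalTile i.1 0 (Pi.single i.2 1)) ∪
    ((univ : Finset (Σ j, ZMod (md j))).filter fun i => i.2 ≠ 0 ∧ i.2 ≠ 1).image
      (fun i => lineTile i.1 i.2) ∪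
    ((univ : Finset (Comp → Bool)).filter fun d => ¬ Allowed d).image
      (fun d => clauseTile cyc (excl d)) ∪
    (univ : Finset (Fin 529 × Fin 22)).image
      (fun i => equalTile (Sum.inr i) (1, -((i.1 : ℕ) : ℤ)) 0)

lemma mem_eqs {F : Finset Amb} : F ∈ eqs ↔ F = graphTile ∨ F = counterTile 23 states ∨
    (∃ i j : Comp, j ≠ i ∧ F = equalTile i 0 (Pi.single j 1)) ∨
    (∃ (i : Comp) (d : ZMod (md i)), d ≠ 0 ∧ d ≠ 1 ∧ F = lineTile i d) ∨
    (∃ d, ¬ Allowed d ∧ F = clauseTile cyc (excl d)) ∨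
    ∃ i : Fin 529 × Fin 22, F = equalTile (Sum.inr i) (1, -((i.1 : ℕ) : ℤ)) 0 := by
  simp only [eqs, Finset.mem_union, Finset.mem_insert, Finset.mem_singleton, Finset.mem_image,
    Finset.mem_filter, Finset.mem_univ, true_and, Prod.exists, Sigma.exists, eq_comm (b := F),
    or_assoc, and_assoc, exists_and_left]

attribute [irreducible] eqs

theorem sound {A : Set Amb} (h : ∀ F ∈ eqs, Tiles F A) (P : ℕ) (hP : 0 < P) :
    ¬ ∀ g, g ∈ A ↔ g + ((((0 : ℤ), (P : ℤ)), 0, 0) : Amb) ∈ A := by
  classical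
  intro hper
  obtain ⟨a, rfl⟩ := exists_graph (h _ (mem_eqs.2 (Or.inl rfl)))
  have hdep : Dep a := dep_of_tiles a fun j i hij =>
    h _ (mem_eqs.2 (Or.inr (Or.inr (Or.inl ⟨j, i, hij, rfl⟩))))
  have haP : ∀ n x, a (n + ((0 : ℤ), (P : ℤ))) x = a n x := fun n x => by
    have := (hper (n, x, a n x)).1 rfl
    simp [graphOf] at this
    exact this.symm
  set c : (j : Comp) → ℤ × ℤ → ZMod (md j) := fun j n =>
    (a n (Pi.single j 1)).1 j - (a n 0).1 j with hc
  have haff : ∀ j n, (c j n = 0 ∨ c j n = 1) ∧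
      ∀ x, (a n x).1 j = (a n 0).1 j + c j n * x j := by
    intro j n
    obtain ⟨t, ht, hx⟩ := bit_of_lines hdep (md_three j) (fun d h0 h1 =>
      h _ (mem_eqs.2 (Or.inr (Or.inr (Or.inr (Or.inl ⟨j, d, h0, h1, rfl⟩)))))) n
    have e : c j n = t := by
      simp only [hc]
      rw [hx (Pi.single j 1), Pi.single_eq_same]
      ring
    rw [e]
    exact ⟨ht, hx⟩
  have hall : ∀ n, Allowed fun j => decide (c j n = 1) := by
    intro n
    by_contra hd
    obtain ⟨j, hj⟩ := clause_sound hdep (fun j => (md_prime j).two_le)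
      (h _ (mem_eqs.2 (Or.inr (Or.inr (Or.inr (Or.inr (Or.inl ⟨_, hd, rfl⟩)))))))
      (Sum.inl 0) n
    have e : c j n = excl (fun j => decide (c j n = 1)) j := by
      have := hj 0
      rw [zero_add, (haff j n).2 (Pi.single j 1), Pi.single_eq_same, mul_one] at this
      linear_combination this
    by_cases h1 : c j n = 1
    · rw [h1] at e
      simp [excl, h1] at e
    · simp [excl, h1] at e
  choose k A B hk hbit hseed using hall
  simp only [decide_eq_true_eq] at hk hbit
  set L : Fin 529 → ℤ × ℤ → ZMod 23 := fun j n => lastDigit 23 (A n * (j : ℕ) + B n) with hL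
  have same : ∀ j n n', (∀ v, c (Sum.inr (j, v)) n = c (Sum.inr (j, v)) n') → L j n = L j n' := by
    intro j n n' e
    have h0 : (L j n).val ≠ 0 := by
      rw [ne_eq, ZMod.val_eq_zero]; exact lastDigit_ne_zero _
    have hlt := (L j n).val_lt
    let v : Fin 22 := ⟨(L j n).val - 1, by omega⟩
    have hv : (((v : ℕ) + 1 : ℕ) : ZMod 23) = L j n := by
      rw [show ((v : ℕ) + 1) = (L j n).val by simp [v]; omega, ZMod.natCast_zmod_val]
    have := (hbit n' j v).1 (by rw [← e v]; exact (hbit n j v).2 hv.symm)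
    rw [← hv]; exact this.symm
  have shift : ∀ j v, ∀ n : ℤ × ℤ, c (Sum.inr (j, v)) n =
      c (Sum.inr (j, v)) (0, n.1 * (j : ℕ) + n.2) := by
    intro j v n
    have step : ∀ n, c (Sum.inr (j, v)) (n + (1, -((j : ℕ) : ℤ))) = c (Sum.inr (j, v)) n := by
      intro n
      have e := equal_sound a (h _ (mem_eqs.2 (Or.inr (Or.inr (Or.inr (Or.inr (Or.inr
        ⟨(j, v), rfl⟩))))))) n
      simp only [add_zero] at e
      simp only [hc, e]
    have : ∀ z : ℤ, ∀ m : ℤ, c (Sum.inr (j, v)) (z, m - z * (j : ℕ)) =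
        c (Sum.inr (j, v)) (0, m) := by
      intro z
      induction z using Int.induction_on with
      | zero => intro m; simp
      | succ z ih =>
        intro m
        rw [← ih m, ← step ((z : ℤ), m - z * (j : ℕ))]
        congr 1
        ext <;> simp
        ring
      | pred z ih =>
        intro m
        rw [← ih m, ← step (-(z : ℤ) - 1, m - (-(z : ℤ) - 1) * (j : ℕ))]
        congr 1
        ext <;> simp
        ring
    rw [← this n.1 (n.1 * (j : ℕ) + n.2)]
    simp
  set T : ℕ → ℤ → ZMod 23 := fun j m => if hj : j < 529 then L ⟨j, hj⟩ (0, m) else 1 with hT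
  have hTL : ∀ (a b : ℤ) (j : ℕ), j < 23 * 23 →
      T j (a * j + b) = lastDigit 23 (A (a, b) * j + B (a, b)) := by
    intro a b j hj
    have hj' : j < 529 := by omega
    simp only [hT, dif_pos hj']
    exact (same ⟨j, hj'⟩ (a, b) _ fun v => shift ⟨j, hj'⟩ v (a, b)).symm
  have count : ∀ k₀ : Fin 3, md (Sum.inl k₀) ∣
      (univ.filter fun i : Fin 23 => k ((0 : ℤ), ((i : ℕ) : ℤ)) = k₀).card := by
    intro k₀
    have := counter_sound hdep (h _ (mem_eqs.2 (Or.inr (Or.inl rfl))))
      (j := Sum.inl k₀) (by simp [states]) (c (Sum.inl k₀)) (fun n => (haff _ n).1)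
      (fun n => (haff _ n).2) 0
    convert this using 3 with i
    rw [zero_add, hk _ k₀, eq_comm]
  have hsum : ∑ k₀ : Fin 3,
      (univ.filter fun i : Fin 23 => k ((0 : ℤ), ((i : ℕ) : ℤ)) = k₀).card = 23 := by
    rw [← card_eq_sum_card_fiberwise (fun i _ => mem_univ _), card_univ, Fintype.card_fin]
  rw [Fin.sum_univ_three] at hsum
  obtain ⟨u, hu⟩ := count 0
  obtain ⟨u', hu'⟩ := count 1
  obtain ⟨u'', hu''⟩ := count 2
  simp only [md, Matrix.cons_val_zero, Matrix.cons_val_one, Matrix.cons_val] at hu hu' hu''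
  rw [hu, hu', hu''] at hsum
  obtain ⟨i, hi⟩ := card_pos.1 (show 0 < (univ.filter fun i : Fin 23 =>
    k ((0 : ℤ), ((i : ℕ) : ℤ)) = 0).card by omega)
  obtain ⟨i', hi'⟩ := card_pos.1 (show 0 < (univ.filter fun i : Fin 23 =>
    k ((0 : ℤ), ((i : ℕ) : ℤ)) = 1).card by omega)
  rw [mem_filter] at hi hi'
  obtain ⟨v, hv, hv2⟩ := hseed _ (by rw [hi.2]; decide)
  obtain ⟨v', hv', hv2'⟩ := hseed _ (by rw [hi'.2]; decide)
  have hs : Seeded 23 T := ⟨0, ((i : ℕ) : ℤ), 0, ((i' : ℕ) : ℤ), v, v',
    fun e => by rw [e, hv', hi.2, hi'.2] at hv; exact absurd hv (by decide),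
    fun l hl => (hTL 0 _ (23 * l) (by omega)).trans (hv2 l hl),
    fun l hl => (hTL 0 _ (23 * l) (by omega)).trans (hv2' l hl)⟩
  refine seeded_no_period (by norm_num) (fun a b => ⟨_, _, hTL a b⟩) hs hP fun j hj m => ?_
  have hj' : j < 529 := by omega
  simp only [hT, dif_pos hj']
  refine same _ _ _ fun v => ?_
  have e : ((0 : ℤ), m + (P : ℤ)) = ((0 : ℤ), m) + ((0 : ℤ), (P : ℤ)) := by simp
  simp only [hc]
  rw [e, haP, haP]

/-- The state of a line. -/
def state (n : ℤ × ℤ) : Fin 3 := block (n.2 : ZMod 23)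

/-- The bits of the standard solution. -/
noncomputable def stdBit (n : ℤ × ℤ) : Comp → Bool
  | Sum.inl k => decide (k = state n)
  | Sum.inr (j, v) => decide (lastDigit 23 (n.1 * (j : ℕ) + n.2) = (((v : ℕ) + 1 : ℕ) : ZMod 23))

/-- The offsets of the standard solution. -/
noncomputable def stdOff (n : ℤ × ℤ) : Idx md
  | Sum.inl k => if k = state n then (((((n.2 : ZMod 23) - 1).val - start k : ℕ)) : ZMod _) else 0
  | Sum.inr _ => 0

/-- The standard solution. -/
noncomputable def std (n : ℤ × ℤ) (x : Idx md) : Val md 23 :=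
  (fun j => stdOff n j + (if stdBit n j then 1 else 0) * x j,
    ((start (state n) + (x (Sum.inl (state n))).val : ℕ) : ZMod 23))

lemma allowed_std (n : ℤ × ℤ) : Allowed (stdBit n) := by
  refine ⟨state n, n.1, n.2, fun k' => by simp [stdBit], fun j v => by simp [stdBit],
    fun hk => ⟨(n.2 : ZMod 23), rfl, fun i _ => ?_⟩⟩
  have h0 : ((n.2 : ℤ) : ZMod 23) ≠ 0 := fun e => hk (by rw [state, e, block_zero])
  have e : ((n.1 * ((23 * i : ℕ) : ℤ) + n.2 : ℤ) : ZMod 23) = (n.2 : ZMod 23) := by
    push_cast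
    rw [show (23 : ZMod 23) = 0 from by decide]
    ring
  rw [lastDigit_of_cast_ne (by rw [e]; exact h0), e]

lemma dep_std : Dep std := fun j n x y hxy => by simp [std, hxy]

lemma std_aff (n : ℤ × ℤ) (j : Comp) (x : Idx md) :
    (std n x).1 j = (std n 0).1 j + (if stdBit n j then 1 else 0) * x j := by
  simp [std]

theorem complete : ∀ F ∈ eqs, Tiles F (graphOf std) := by
  intro F hF
  rcases mem_eqs.1 hF with rfl | rfl | ⟨i, j, hij, rfl⟩ | ⟨i, d, h0, h1, rfl⟩ | ⟨d, hd, rfl⟩ |
    ⟨⟨j, v⟩, rfl⟩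
  · exact graph_tiles _
  · refine counter_complete states ?_ fun n x => ?_
    · rw [Fintype.card_prod, ZMod.card, mul_comm]
    rintro ⟨i, w⟩ ⟨i', w'⟩ h
    simp only [cov, zero_add, Prod.ext_iff, Prod.fst_add, Prod.snd_add, funext_iff,
      Pi.add_apply, onSet, std] at h
    obtain ⟨h1, h2⟩ := h
    obtain ⟨hk, hy⟩ := slot_inj h2
    set K := state (n + ((0 : ℤ), ((i : ℕ) : ℤ))) with hK
    have hU : ∀ k, (Sum.inl k : Comp) ∈ states := by simp [states]
    have hUr : ∀ v, (Sum.inr v : Comp) ∉ states := by simp [states]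
    have hwK : w (Sum.inl K) = w' (Sum.inl K) := by
      rw [← hk] at hy
      have := ZMod.val_injective _ hy
      simpa [hU] using this
    have e1 : ∀ k, -w (Sum.inl k) + (stdOff (n + (0, ((i : ℕ) : ℤ))) (Sum.inl k) +
        (if k = K then 1 else 0) * (x (Sum.inl k) + w (Sum.inl k))) =
        -w' (Sum.inl k) + (stdOff (n + (0, ((i' : ℕ) : ℤ))) (Sum.inl k) +
        (if k = K then 1 else 0) * (x (Sum.inl k) + w' (Sum.inl k))) := fun k => by
      have := h1 (Sum.inl k)
      simp only [hU, if_true, stdBit, decide_eq_true_eq, ← hk, ← hK] at this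
      exact this
    have hi : i = i' := by
      have hoff := e1 K
      rw [hwK] at hoff
      simp only [stdOff, ← hk, ← hK, if_true, add_left_inj, add_right_inj] at hoff
      have r1 := block_range ((n + ((0 : ℤ), ((i : ℕ) : ℤ))).2 : ZMod 23)
      have r2 := block_range ((n + ((0 : ℤ), ((i' : ℕ) : ℤ))).2 : ZMod 23)
      rw [← state] at r1 r2
      rw [← hk] at r2
      rw [← hK] at r1
      rw [ZMod.natCast_eq_natCast_iff', Nat.mod_eq_of_lt (by omega),
        Nat.mod_eq_of_lt (by omega)] at hoff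
      have := ZMod.val_injective 23 (show (((n + ((0 : ℤ), ((i : ℕ) : ℤ))).2 : ZMod 23) - 1).val =
        (((n + ((0 : ℤ), ((i' : ℕ) : ℤ))).2 : ZMod 23) - 1).val by omega)
      simp only [sub_left_inj, Prod.snd_add, Int.cast_add, add_right_inj, Int.cast_natCast] at this
      rw [ZMod.natCast_eq_natCast_iff', Nat.mod_eq_of_lt i.isLt, Nat.mod_eq_of_lt i'.isLt] at this
      exact Fin.ext this
    subst hi
    refine Prod.ext rfl (funext fun j => ?_)
    rcases j with k | v
    · rcases eq_or_ne k K with rfl | hne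
      · exact hwK
      · have := e1 k
        simpa [hne] using this
    · have := h1 (Sum.inr v)
      simpa [hUr] using this
  · exact Dep.complete _ dep_std hij
  · refine line_complete dep_std (fun n => if stdBit n i then 1 else 0) (fun n => ?_)
      (fun n x => std_aff n i x)
    split_ifs
    · exact Ne.symm h1
    · exact Ne.symm h0
  · refine clause_complete dep_std (exists_cycle Comp).choose_spec fun n => ?_
    obtain ⟨j, hj⟩ : ∃ j, d j ≠ stdBit n j := by
      by_contra hne
      simp only [not_exists, not_not] at hne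
      exact hd (funext hne ▸ allowed_std n)
    refine ⟨j, fun x => ?_⟩
    rw [std_aff n j (x + Pi.single j 1), std_aff n j x, Pi.add_apply, Pi.single_eq_same]
    have : excl d j = if stdBit n j then 1 else 0 := by
      simp only [excl]
      revert hj
      cases d j <;> cases h : stdBit n j <;> simp_all [excl]
    rw [this]; ring
  · refine equal_complete _ fun n x => ?_
    have e : (n.1 + 1) * ((j : ℕ) : ℤ) + (n.2 + -((j : ℕ) : ℤ)) = n.1 * (j : ℕ) + n.2 := by ring
    simp [std, stdOff, stdBit, e]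

end Vale.Agent.P043.System
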